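import Crest.Agent.H0122.Good

set_option autoImplicit false
set_option linter.unusedSectionVars false

namespace Crest.Agent.H0122

open Finset Real Filter Topology Crest.AnalysisR.MassAction

lemma exists_max {ι : Type} [Fintype ι] {F : Set ((ι → ℝ) × ℝ)} (hne : F.Nonempty)
    (hF : ∀ a b lv : ℝ, 0 < a →
      {p ∈ F | ∃ x : ι → ℝ, (∀ i, a ≤ x i ∧ x i ≤ b) ∧ lv ≤ val p x}.Finite)
    {y : ι → ℝ} (hy : ∀ i, 0 < y i) : ∃ p ∈ F, ∀ q ∈ F, val q y ≤ val p y := by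
  classical
  obtain ⟨a, b, ha, hab⟩ := exists_box hy
  obtain ⟨p₀, hp₀⟩ := hne
  have hb : ∀ i, a ≤ y i ∧ y i ≤ b := fun i => ⟨(hab i).1.le, (hab i).2.le⟩
  obtain ⟨p, hp, h⟩ := Set.exists_max_image _ (fun p => val p y) (hF a b (val p₀ y) ha)
    ⟨p₀, hp₀, y, hb, le_rfl⟩
  refine ⟨p, hp.1, fun q hq => ?_⟩
  by_cases h1 : val p₀ y ≤ val q y
  · exact h q ⟨hq, y, hb, h1⟩
  · exact (le_of_not_ge h1).trans (h p₀ ⟨hp₀, y, hb, le_rfl⟩)

variable {d : ℕ}

lemma field_cont (R : Network d) (k : (Fin d → ℕ) × (Fin d → ℕ) → ℝ) : Continuous (field R k) := by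
  unfold field; fun_prop

lemma class_compact (R : Network d) (c : Fin d → ℝ) (a b : ℝ) (ha : 0 < a) :
    IsCompact {y ∈ positiveClass R c | ∀ i, a ≤ y i ∧ y i ≤ b} := by
  have h1 : IsClosed {y : Fin d → ℝ | y - c ∈ stoichSubspace R} :=
    (stoichSubspace R).closed_of_finiteDimensional.preimage (by fun_prop)
  convert (isCompact_Icc (a := fun _ : Fin d => a) (b := fun _ => b)).inter_right h1 using 1
  ext y
  constructor
  · rintro ⟨h2, h3⟩
    exact ⟨⟨fun i => (h3 i).1, fun i => (h3 i).2⟩, h2.2⟩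
  · rintro ⟨h2, h3⟩
    exact ⟨⟨fun i => ha.trans_le (h2.1 i), h3⟩, fun i => ⟨h2.1 i, h2.2 i⟩⟩

lemma top (hd : 1 ≤ d) (R : Network d) (hR : IsWeaklyReversible R)
    (k : (Fin d → ℕ) × (Fin d → ℕ) → ℝ) (hk : ∀ r ∈ R, 0 < k r) (c : Fin d → ℝ) (hc : ∀ i, 0 < c i) :
    ∃ K b, Good (field R k) (positiveClass R c) c K ∧ ∀ y ∈ K, y ∈ positiveClass R c → ∀ i, y i ≤ b := by
  obtain ⟨N₀, M, hdec⟩ := decr R hR k hk
  obtain ⟨F, C, B, hne, -, -, hF, hmax⟩ := root (univ : Finset (Fin d)) ⟨⟨0, hd⟩, mem_univ _⟩ N₀ M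
  obtain ⟨p₀, -, h₀⟩ := exists_max hne hF hc
  obtain ⟨p₁, hp₁, h₁⟩ := exists_max hne hF (y := fun _ => exp (C + 1)) fun _ => exp_pos _
  have h2 := (hmax _ (fun _ => exp_pos _) (by simp) p₁ hp₁ h₁).2
  simp only [log_exp] at h2
  refine ⟨_, val p₀ c + 1 + p₁.2, (good_univ _ _ c).add (field_cont R k) (fun y hy => hy.1)
    (class_compact R c) (F := F) (lv := val p₀ c + 1) (fun a b ha => hF a b _ ha)
    (fun p hp => by linarith [h₀ p hp]) (fun y _ hy p hp h3 h4 =>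
      hdec c y p hy (hmax y hy.1 (by simp) p hp h3).1 (by linarith [h₀ p hp])), ?_⟩
  intro y hy hy' i
  have a1 := hy.2 p₁ hp₁
  have a2 : ∀ j, y j ≤ p₁.1 j * y j := fun j =>
    le_mul_of_one_le_left (hy'.1 j).le (by linarith [(abs_le.1 (h2 j)).1])
  have a3 := single_le_sum (f := fun j => p₁.1 j * y j) (fun j _ => (hy'.1 j).le.trans (a2 j)) (mem_univ i)
  unfold val at a1 ⊢
  linarith [a2 i]

lemma one (R : Network d) (hR : IsWeaklyReversible R)
    (k : (Fin d → ℕ) × (Fin d → ℕ) → ℝ) (hk : ∀ r ∈ R, 0 < k r) (c : Fin d → ℝ) (hc : ∀ i, 0 < c i)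
    {K : Set (Fin d → ℝ)} (hK : Good (field R k) (positiveClass R c) c K) {b ε : ℝ} (hε : 0 < ε)
    {I : Finset (Fin d)} (hI : I.Nonempty) (hb : ∀ y ∈ K, y ∈ positiveClass R c → ∀ i, y i ≤ b)
    (hlow : ∀ y ∈ K, y ∈ positiveClass R c → ∀ j, j ∉ I → ε ≤ ∑ i ∈ insert j I, y i) :
    ∃ K' ⊆ K, ∃ ε' > 0, Good (field R k) (positiveClass R c) c K' ∧
      ∀ y ∈ K', y ∈ positiveClass R c → ε' ≤ ∑ i ∈ I, y i := by
  obtain ⟨N₀, M, hdec⟩ := decr R hR k hk
  obtain ⟨F, C, B, hne, hsup, hB, hF, hmax⟩ := root I hI N₀ (|M| + |log (ε / 2)| + |log b|)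
  set G : Set ((Fin d → ℝ) × ℝ) := {p ∈ F | ∀ i ∈ I, p.1 i ≤ -1} with hG
  have hGne : G.Nonempty := by
    have h0 : ∀ i, 0 < if i ∈ I then exp (-C - 1) else 1 := fun i => by split_ifs <;> positivity
    obtain ⟨p, hp, h⟩ := exists_max hne hF h0
    have h2 := (hmax _ h0 (fun i hi => by rw [if_neg hi, log_one, abs_zero]; positivity) p hp h).2
    refine ⟨p, hp, fun i hi => ?_⟩
    have := h2 i
    rw [if_pos hi, log_exp] at this
    linarith [(abs_le.1 this).2]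
  have hbdd : BddAbove ((fun p : (Fin d → ℝ) × ℝ => -p.2) '' G) :=
    ⟨B, by rintro _ ⟨p, hp, rfl⟩; exact hB p hp.1⟩
  set Φ := sSup ((fun p : (Fin d → ℝ) × ℝ => -p.2) '' G) with hΦ
  have hcI : 0 < ∑ i ∈ I, c i := sum_pos (fun i _ => hc i) hI
  set δ := min (min (ε / 2) (exp (-C - 1))) ((∑ i ∈ I, c i) / 2) with hδ
  have hδ0 : 0 < δ := by positivity
  have hδ1 : δ ≤ ε / 2 := (min_le_left _ _).trans (min_le_left _ _)
  have hδ2 : δ ≤ exp (-C - 1) := (min_le_left _ _).trans (min_le_right _ _)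
  have hδ3 : δ ≤ (∑ i ∈ I, c i) / 2 := min_le_right _ _
  have hv : ∀ p ∈ G, ∀ y : Fin d → ℝ, (∀ i, 0 < y i) → val p y ≤ Φ - ∑ i ∈ I, y i := by
    intro p hp y hy
    have a1 := val_le_slope (R := I) (q := p) (t := -1) hy fun i => ⟨hp.2 i, hsup p hp.1 i⟩
    have a2 : -p.2 ≤ Φ := le_csSup hbdd ⟨p, hp, rfl⟩
    linarith
  obtain ⟨_, ⟨p₀, hp₀, rfl⟩, h₀⟩ := exists_lt_of_lt_csSup (hGne.image _) (by linarith : Φ - δ / 2 < Φ)
  set H := ∑ i, |p₀.1 i| + 1 with hH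
  have hH0 : 0 < H := by positivity
  refine ⟨_, Set.inter_subset_left, δ / 2 / H, by positivity, hK.add (field_cont R k) (fun y hy => hy.1)
    (class_compact R c) (F := G) (lv := Φ - δ)
    (fun a b ha => (hF a b (Φ - δ) ha).subset fun p hp => ⟨hp.1.1, hp.2⟩)
    (fun p hp => by linarith [hv p hp c hc]) (fun y hyK hy p hp h3 h4 => ?_), ?_⟩
  · have a1 : ∑ i ∈ I, y i ≤ δ := by linarith [hv p hp y hy.1]
    have a2 : ∀ j, j ∉ I → |log (y j)| ≤ |M| + |log (ε / 2)| + |log b| := by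
      intro j hj
      have b1 := hlow y hyK hy j hj
      rw [sum_insert hj] at b1
      have b2 := log_le_log (by positivity) (by linarith : ε / 2 ≤ y j)
      have b3 := log_le_log (hy.1 j) (hb y hyK hy j)
      rw [abs_le]
      constructor <;> linarith [abs_nonneg M, abs_nonneg (log (ε / 2)), abs_nonneg (log b),
        neg_abs_le (log (ε / 2)), le_abs_self (log b)]
    obtain ⟨p', hp', h'⟩ := exists_max hne hF hy.1
    have a3 : p' ∈ G := ⟨hp', fun i hi => by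
      have b1 := (abs_le.1 ((hmax y hy.1 a2 p' hp' h').2 i)).2
      have b2 : y i ≤ exp (-C - 1) :=
        (single_le_sum (fun i _ => (hy.1 i).le) hi).trans (a1.trans hδ2)
      have b3 := (log_le_iff_le_exp (hy.1 i)).2 b2
      linarith⟩
    have a4 := (hmax y hy.1 a2 p hp.1 fun q hq => (h' q hq).trans (h3 p' a3)).1
    refine hdec c y p hy (fun v hv hv' => le_trans ?_ (a4 v hv hv')) (by linarith [hv p hp c hc])
    linarith [le_abs_self M, abs_nonneg (log (ε / 2)), abs_nonneg (log b)]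
  · intro y hy hy'
    have a1 := hy.2 p₀ hp₀
    have a2 := val_le_slope (R := I) (q := -p₀) (t := H) hy'.1 fun i => ⟨fun _ => by
      have := single_le_sum (f := fun i => |p₀.1 i|) (fun _ _ => abs_nonneg _) (mem_univ i)
      simp only [Prod.fst_neg, Pi.neg_apply]
      linarith [neg_abs_le (p₀.1 i)], fun hi => by simp [hsup p₀ hp₀.1 i hi]⟩
    have a3 := val_add p₀ (-p₀) y
    rw [add_neg_cancel, val_zero] at a3
    rw [div_le_iff₀ hH0]
    simp only [Prod.snd_neg] at a2 h₀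
    linarith

lemma barrier (hd : 1 ≤ d) (R : Network d) (hR : IsWeaklyReversible R)
    (k : (Fin d → ℕ) × (Fin d → ℕ) → ℝ) (hk : ∀ r ∈ R, 0 < k r) (c : Fin d → ℝ) (hc : ∀ i, 0 < c i) :
    ∃ K a b, 0 < a ∧ Good (field R k) (positiveClass R c) c K ∧
      ∀ y ∈ K, y ∈ positiveClass R c → ∀ i, a ≤ y i ∧ y i ≤ b := by
  obtain ⟨K₀, b, hK₀, hb⟩ := top hd R hR k hk c hc
  have key : ∀ s : Finset (Finset (Fin d)), (∀ I ∈ s, I.Nonempty) →
      (∀ I ∈ s, ∀ J : Finset (Fin d), I.card < J.card → J ∈ s) →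
      ∃ K ⊆ K₀, ∃ ε > 0, Good (field R k) (positiveClass R c) c K ∧
        ∀ y ∈ K, y ∈ positiveClass R c → ∀ I ∈ s, ε ≤ ∑ i ∈ I, y i := by
    intro s
    refine Finset.induction_on_min_value card s ?_ ?_
    · exact fun _ _ => ⟨K₀, subset_rfl, 1, one_pos, hK₀, by simp⟩
    · intro I s hI hmin ih h1 h2
      have h3 : ∀ J : Finset (Fin d), I.card < J.card → J ∈ s := fun J hJ =>
        (mem_insert.1 (h2 I (mem_insert_self _ _) J hJ)).resolve_left (by rintro rfl; omega)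
      obtain ⟨K, hK0, ε, hε, hK, h⟩ := ih (fun J hJ => h1 J (mem_insert_of_mem hJ))
        fun J hJ J' hJ' => h3 J' ((hmin J hJ).trans_lt hJ')
      obtain ⟨K', hK'0, ε', hε', hK', h'⟩ := one R hR k hk c hc hK hε (h1 I (mem_insert_self _ _))
        (fun y hy => hb y (hK0 hy))
        fun y hy hy' j hj => h y hy hy' _ (h3 _ (by rw [card_insert_of_notMem hj]; omega))
      refine ⟨K', hK'0.trans hK0, min ε ε', by positivity, hK', fun y hy hy' J hJ => ?_⟩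
      rcases mem_insert.1 hJ with rfl | hJ
      · exact (min_le_right _ _).trans (h' y hy hy')
      · exact (min_le_left _ _).trans (h y (hK'0 hy) hy' J hJ)
  obtain ⟨K, hK0, ε, hε, hK, h⟩ := key (univ.filter Finset.Nonempty) (by simp)
    fun I _ J hJ => by simpa using card_pos.1 (by omega)
  exact ⟨K, ε, b, hε, hK, fun y hy hy' i => ⟨by simpa using h y hy hy' {i} (by simp), hb y (hK0 hy) hy' i⟩⟩

end Crest.Agent.H0122
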