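import Crest.Agent.H0122.Root
import Crest.Prelude.Def_MassAction

set_option autoImplicit false

namespace Crest.Agent.H0122

open Finset Real Crest.AnalysisR.MassAction

lemma path_bound {W : Type} (R : Finset (W × W)) {a b : W}
    (h : Relation.ReflTransGen (fun a b => (a, b) ∈ R) a b) :
    ∃ n : ℕ, ∀ (φ : W → ℝ) (s : ℝ), max (φ a - s) 0 - max (φ b - s) 0 ≤
      n * ∑ r ∈ R, if s < φ r.1 then max (φ r.1 - φ r.2) 0 else 0 := by
  induction h with
  | refl => exact ⟨0, fun φ s => by simp⟩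
  | @tail b c _ hbc ih =>
    obtain ⟨n, hn⟩ := ih
    refine ⟨n + 1, fun φ s => ?_⟩
    have h1 := hn φ s
    have h2 := single_le_sum (f := fun r : W × W => if s < φ r.1 then max (φ r.1 - φ r.2) 0 else 0)
      (fun r _ => by positivity) hbc
    have h3 : max (φ b - s) 0 - max (φ c - s) 0 ≤ if s < φ b then max (φ b - φ c) 0 else 0 := by
      split_ifs with h
      · rw [max_eq_left (by linarith)]
        linarith [le_max_left (φ c - s) 0, le_max_left (φ b - φ c) 0]
      · rw [max_eq_right (by linarith)]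
        linarith [le_max_right (φ c - s) 0]
    push_cast
    linarith

lemma stepA {d : ℕ} (R : Network d) (hR : IsWeaklyReversible R)
    (k : (Fin d → ℕ) × (Fin d → ℕ) → ℝ) (hk : ∀ r ∈ R, 0 < k r) :
    ∃ (N₀ : ℕ) (M : ℝ), ∀ w x : Fin d → ℝ, (∀ i, 0 < x i) → Compat N₀ M w (fun i => log (x i)) →
      (∃ r ∈ R, ∑ i, w i * reactionVector r i ≠ 0) → ∑ i, w i * field R k x i < 0 := by
  obtain ⟨κ, hκ0, hκ⟩ : ∃ κ > 0, ∀ r ∈ R, κ ≤ k r := by
    rcases R.eq_empty_or_nonempty with rfl | h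
    · exact ⟨1, one_pos, by simp⟩
    · obtain ⟨r, hr, h⟩ := exists_min_image R k h
      exact ⟨k r, hk r hr, h⟩
  have hn := fun r hr => path_bound R (hR r hr)
  choose! n hn using hn
  set V : (Fin d → ℕ) → (Fin d → ℕ) → Fin d → ℤ := fun a b i => (a i : ℤ) - b i with hV
  set G : ℝ := ∑ r ∈ R, k r * n r with hG
  have hG0 : 0 ≤ G := sum_nonneg fun r hr => mul_nonneg (hk r hr).le (Nat.cast_nonneg _)
  refine ⟨∑ r ∈ R, ∑ r' ∈ R, (nrm (V r.1 r'.1)).toNat, 2 * G / κ, fun w x hx hC hex => ?_⟩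
  set φ : (Fin d → ℕ) → ℝ := fun a => ∑ i, w i * a i with hφ
  set m : (Fin d → ℕ) → ℝ := fun a => ∏ i, x i ^ a i with hm
  have hm0 : ∀ a, 0 < m a := fun a => prod_pos fun i _ => pow_pos (hx i) _
  have hΔ : ∀ r : (Fin d → ℕ) × (Fin d → ℕ), ∑ i, w i * reactionVector r i = φ r.2 - φ r.1 := by
    intro r
    simp only [hφ, reactionVector, mul_sub, sum_sub_distrib]
  have hf : ∑ i, w i * field R k x i = ∑ r ∈ R, k r * m r.1 * (φ r.2 - φ r.1) := by
    simp only [field, Finset.sum_apply, Pi.smul_apply, smul_eq_mul, mul_sum]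
    rw [sum_comm]
    refine sum_congr rfl fun r _ => ?_
    rw [← hΔ, mul_sum]
    exact sum_congr rfl fun i _ => by ring
  have hcmp : ∀ r ∈ R, ∀ r' ∈ R, φ r'.1 < φ r.1 → 2 * G * m r'.1 ≤ κ * m r.1 := by
    intro r hr r' hr' h
    have a1 : nrm (V r.1 r'.1) ≤ (∑ r ∈ R, ∑ r' ∈ R, (nrm (V r.1 r'.1)).toNat : ℕ) := by
      have b1 : (nrm (V r.1 r'.1)).toNat ≤ ∑ r ∈ R, ∑ r' ∈ R, (nrm (V r.1 r'.1)).toNat :=
        (single_le_sum (f := fun r' : (Fin d → ℕ) × (Fin d → ℕ) => (nrm (V r.1 r'.1)).toNat)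
          (fun _ _ => Nat.zero_le _) hr').trans
        (single_le_sum (f := fun r : (Fin d → ℕ) × (Fin d → ℕ) => ∑ r' ∈ R, (nrm (V r.1 r'.1)).toNat)
          (fun _ _ => Nat.zero_le _) hr)
      omega
    have a2 : ∀ z : Fin d → ℝ, dot (V r.1 r'.1) z = ∑ i, z i * r.1 i - ∑ i, z i * r'.1 i := by
      intro z
      simp only [dot, hV, ← sum_sub_distrib]
      exact sum_congr rfl fun i _ => by push_cast; ring
    have a3 := hC _ a1 (by rw [a2]; exact sub_pos.2 h)
    rw [a2] at a3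
    have a4 : ∀ a, m a = exp (∑ i, log (x i) * a i) := by
      intro a
      rw [exp_sum]
      exact prod_congr rfl fun i _ => by rw [mul_comm, exp_nat_mul, exp_log (hx i)]
    have a5 : exp (2 * G / κ) * m r'.1 ≤ m r.1 := by
      rw [a4, a4, ← exp_add]; exact exp_le_exp.2 (by linarith)
    have a6 : 2 * G / κ * m r'.1 ≤ m r.1 :=
      (mul_le_mul_of_nonneg_right (by linarith [add_one_le_exp (2 * G / κ)]) (hm0 _).le).trans a5
    rwa [div_mul_eq_mul_div, div_le_iff₀' hκ0] at a6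
  set T : ℝ := ∑ r ∈ R, k r * m r.1 * max (φ r.1 - φ r.2) 0 with hT
  set Pz : ℝ := ∑ r ∈ R, k r * m r.1 * max (φ r.2 - φ r.1) 0 with hP
  have hT0 : 0 ≤ T := sum_nonneg fun r hr => by have := hk r hr; have := hm0 r.1; positivity
  have h1 : ∑ r ∈ R, k r * m r.1 * (φ r.2 - φ r.1) = Pz - T := by
    rw [hP, hT, ← sum_sub_distrib]
    refine sum_congr rfl fun r _ => ?_
    rcases le_total (φ r.1) (φ r.2) with h | h
    · rw [max_eq_left (by linarith), max_eq_right (by linarith)]; ring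
    · rw [max_eq_right (by linarith), max_eq_left (by linarith)]; ring
  have h2 : ∀ r' ∈ R, 2 * G * (m r'.1 * max (φ r'.2 - φ r'.1) 0) ≤ n r' * T := by
    intro r' hr'
    have a1 := hn r' hr' φ (φ r'.1)
    simp only [sub_self, max_self, sub_zero] at a1
    have a2 := mul_le_mul_of_nonneg_left a1 (by have := hm0 r'.1; positivity : 0 ≤ 2 * G * m r'.1)
    have a3 : 2 * G * m r'.1 * ∑ r ∈ R, (if φ r'.1 < φ r.1 then max (φ r.1 - φ r.2) 0 else 0) ≤ T := by
      rw [mul_sum, hT]
      refine sum_le_sum fun r hr => ?_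
      have := hk r hr
      have := hm0 r.1
      split_ifs with h
      · exact mul_le_mul_of_nonneg_right ((hcmp r hr r' hr' h).trans
          (mul_le_mul_of_nonneg_right (hκ r hr) this.le)) (le_max_right _ _)
      · rw [mul_zero]; positivity
    have a4 := mul_le_mul_of_nonneg_left a3 (Nat.cast_nonneg (α := ℝ) (n r'))
    linarith
  have h3 : G * (2 * Pz) ≤ G * T := by
    have : ∑ r ∈ R, k r * (2 * G * (m r.1 * max (φ r.2 - φ r.1) 0)) ≤ ∑ r ∈ R, k r * (n r * T) :=
      sum_le_sum fun r hr => mul_le_mul_of_nonneg_left (h2 r hr) (hk r hr).le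
    convert this using 1
    · rw [hP, mul_sum, mul_sum]; exact sum_congr rfl fun r _ => by ring
    · rw [hG, sum_mul]; exact sum_congr rfl fun r _ => by ring
  have h4 : 2 * Pz ≤ T := by
    rcases hG0.eq_or_lt with h | h
    · have : Pz = 0 := sum_eq_zero fun r hr => by
        have b1 : k r * n r = 0 := (sum_eq_zero_iff_of_nonneg
          fun r hr => mul_nonneg (hk r hr).le (Nat.cast_nonneg _)).1 h.symm r hr
        have b2 : (n r : ℝ) = 0 := (mul_eq_zero.1 b1).resolve_left (hk r hr).ne'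
        have a1 := hn r hr φ (φ r.1)
        simp only [sub_self, max_self, sub_zero, b2, zero_mul] at a1
        rw [le_antisymm a1 (le_max_right _ _), mul_zero]
      linarith
    · exact le_of_mul_le_mul_left h3 h
  obtain ⟨r, hr, h5⟩ := hex
  rw [hΔ] at h5
  rw [hf, h1]
  have := hk r hr
  have := hm0 r.1
  rcases lt_or_gt_of_ne h5 with h | h
  · have a1 : 0 < k r * m r.1 * max (φ r.1 - φ r.2) 0 := by
      have : 0 < max (φ r.1 - φ r.2) 0 := lt_max_of_lt_left (by linarith)
      positivity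
    have a2 := single_le_sum (f := fun r => k r * m r.1 * max (φ r.1 - φ r.2) 0)
      (fun r hr => by have := hk r hr; have := hm0 r.1; positivity) hr
    linarith
  · have a1 : 0 < k r * m r.1 * max (φ r.2 - φ r.1) 0 := by
      positivity
    have a2 := single_le_sum (f := fun r => k r * m r.1 * max (φ r.2 - φ r.1) 0)
      (fun r hr => by have := hk r hr; have := hm0 r.1; positivity) hr
    have a3 : 0 < max (φ r.2 - φ r.1) 0 := lt_max_of_lt_left h
    have a4 : 0 < k r * m r.1 * max (φ r.2 - φ r.1) 0 := by positivity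
    linarith

lemma perp {d : ℕ} (R : Network d) {w z : Fin d → ℝ}
    (h : ∀ r ∈ R, ∑ i, w i * reactionVector r i = 0) (hz : z ∈ stoichSubspace R) :
    ∑ i, w i * z i = 0 := by
  induction hz using Submodule.span_induction with
  | mem x hx => obtain ⟨r, hr, rfl⟩ := hx; exact h r hr
  | zero => simp
  | add x y _ _ hx hy => simp [mul_add, sum_add_distrib, hx, hy]
  | smul a x _ hx =>
    have : ∑ i, w i * (a • x) i = a * ∑ i, w i * x i := by
      rw [mul_sum]; exact sum_congr rfl fun i _ => by simp; ring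
    rw [this, hx, mul_zero]

/-- the decrease statement used by all barriers -/
lemma decr {d : ℕ} (R : Network d) (hR : IsWeaklyReversible R)
    (k : (Fin d → ℕ) × (Fin d → ℕ) → ℝ) (hk : ∀ r ∈ R, 0 < k r) :
    ∃ (N₀ : ℕ) (M : ℝ), ∀ (c x : Fin d → ℝ) (p : (Fin d → ℝ) × ℝ), x ∈ positiveClass R c →
      Compat N₀ M p.1 (fun i => log (x i)) → val p c < val p x → ∑ i, p.1 i * field R k x i < 0 := by
  obtain ⟨N₀, M, h⟩ := stepA R hR k hk
  refine ⟨N₀, M, fun c x p hx hC hv => h _ _ hx.1 hC ?_⟩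
  by_contra h1
  push Not at h1
  have := perp R h1 hx.2
  simp only [Pi.sub_apply, mul_sub, sum_sub_distrib] at this
  unfold val at hv
  linarith

end Crest.Agent.H0122
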