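import Crest.Agent.H0122.Barrier

set_option autoImplicit false
set_option linter.unusedSectionVars false

namespace Crest.Agent.H0122

open Finset Real Filter Topology Crest.AnalysisR.MassAction

lemma global_exist {E : Type} [NormedAddCommGroup E] [NormedSpace ℝ E] [CompleteSpace E] {g : E → E}
    {K L : NNReal} (hg : LipschitzWith K g) (hL : ∀ y, ‖g y‖ ≤ L) (x₀ : E) :
    ∃ x : ℝ → E, x 0 = x₀ ∧ ∀ t, 0 ≤ t → HasDerivWithinAt x (g (x t)) (Set.Ici 0) t := by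
  have h1 : ∀ n : ℕ, ∃ α : ℝ → E, α 0 = x₀ ∧
      ∀ t ∈ Set.Icc (0 : ℝ) (n + 1), HasDerivWithinAt α (g (α t)) (Set.Icc 0 (n + 1)) t := by
    intro n
    have h : IsPicardLindelof (fun _ : ℝ => g) (tmin := 0) (tmax := n + 1)
        ⟨0, le_rfl, by positivity⟩ x₀ (L * (n + 1)) 0 L K :=
      IsPicardLindelof.of_time_independent (fun y _ => hL y) hg.lipschitzOnWith (by
        simp only [sub_zero, sub_self]
        rw [max_eq_left (by positivity)]
        simp)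
    exact h.exists_eq_forall_mem_Icc_hasDerivWithinAt₀
  choose α h0 hα using h1
  have h2 : ∀ (n m : ℕ) (s : ℝ), 0 ≤ s → s ≤ n + 1 → s ≤ m + 1 → α n s = α m s := by
    intro n m s hs hn hm
    have key : ∀ n : ℕ, s ≤ n + 1 → ContinuousOn (α n) (Set.Icc 0 s) ∧
        ∀ t ∈ Set.Ico 0 s, HasDerivWithinAt (α n) (g (α n t)) (Set.Ici t) t := fun n hn =>
      ⟨fun t ht => (hα n t ⟨ht.1, ht.2.trans hn⟩).continuousWithinAt.mono
        (Set.Icc_subset_Icc_right hn), fun t ht =>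
        (hα n t ⟨ht.1, ht.2.le.trans hn⟩).mono_of_mem_nhdsWithin
          (Icc_mem_nhdsGE_of_mem ⟨ht.1, ht.2.trans_le hn⟩)⟩
    exact ODE_solution_unique_of_mem_Icc_right (v := fun _ => g) (s := fun _ => Set.univ) (K := K)
      (fun _ _ => hg.lipschitzOnWith) (key n hn).1 (key n hn).2 (fun _ _ => trivial)
      (key m hm).1 (key m hm).2 (fun _ _ => trivial) ((h0 n).trans (h0 m).symm) ⟨hs, le_rfl⟩
  refine ⟨fun t => α ⌈t⌉₊ t, h0 _, fun t ht => ?_⟩
  have h3 : t < ⌈t⌉₊ + 1 := by linarith [Nat.le_ceil t]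
  have h4 : Set.Icc (0 : ℝ) (⌈t⌉₊ + 1) ∈ 𝓝[Set.Ici 0] t := by
    rw [← Set.Ici_inter_Iic]
    exact inter_mem_nhdsWithin _ (Iic_mem_nhds h3)
  refine HasDerivWithinAt.mono_of_mem_nhdsWithin ?_ h4
  exact (hα ⌈t⌉₊ t ⟨ht, h3.le⟩).congr
    (fun s hs => h2 _ _ s hs.1 (by linarith [Nat.le_ceil s]) hs.2) rfl

lemma sub_mem_of_deriv {ι : Type} [Fintype ι] (S : Submodule ℝ (ι → ℝ)) {x x' : ℝ → ι → ℝ}
    (hx : ∀ t, 0 ≤ t → HasDerivWithinAt x (x' t) (Set.Ici 0) t) (hS : ∀ t, 0 ≤ t → x' t ∈ S)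
    {t : ℝ} (ht : 0 ≤ t) : x t - x 0 ∈ S := by
  refine (Subspace.forall_mem_dualAnnihilator_apply_eq_zero_iff S _).1 fun φ hφ => ?_
  have h1 : ∀ s, 0 ≤ s → HasDerivWithinAt (fun s => φ (x s)) 0 (Set.Ici 0) s := fun s hs => by
    have := (LinearMap.toContinuousLinearMap φ).hasFDerivAt.comp_hasDerivWithinAt s (hx s hs)
    simp only [LinearMap.coe_toContinuousLinearMap'] at this
    rwa [(Submodule.mem_dualAnnihilator φ).1 hφ _ (hS s hs)] at this
  have h2 := constant_of_has_deriv_right_zero (f := fun s => φ (x s)) (a := 0) (b := t)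
    (fun s hs => (h1 s hs.1).continuousWithinAt.mono fun u hu => hu.1)
    (fun s hs => (h1 s hs.1).mono (Set.Ici_subset_Ici.2 hs.1)) t ⟨ht, le_rfl⟩
  rw [map_sub, sub_eq_zero]
  exact h2

variable {d : ℕ}

lemma field_mem (R : Network d) (k : (Fin d → ℕ) × (Fin d → ℕ) → ℝ) (y : Fin d → ℝ) :
    field R k y ∈ stoichSubspace R :=
  Submodule.sum_mem _ fun r hr => Submodule.smul_mem _ _ (Submodule.subset_span ⟨r, hr, rfl⟩)

lemma field_lip (R : Network d) (k : (Fin d → ℕ) × (Fin d → ℕ) → ℝ) {s : Set (Fin d → ℝ)}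
    (hs : IsCompact s) : ∃ K, LipschitzOnWith K (field R k) s := by
  have : ContDiff ℝ 1 (field R k) := by unfold field; fun_prop
  exact this.locallyLipschitz.locallyLipschitzOn.exists_lipschitzOnWith_of_compact hs

lemma good_compact {R : Network d} {f : (Fin d → ℝ) → Fin d → ℝ} {c c' : Fin d → ℝ}
    {K : Set (Fin d → ℝ)} {a b : ℝ} (ha : 0 < a) (hK : Good f (positiveClass R c) c' K)
    (hb : ∀ y ∈ K, y ∈ positiveClass R c → ∀ i, a ≤ y i ∧ y i ≤ b) :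
    IsCompact (K ∩ positiveClass R c) := by
  convert (class_compact R c a b ha).inter_left hK.closed using 1
  ext y
  exact ⟨fun h => ⟨h.1, h.2, hb y h.1 h.2⟩, fun h => ⟨h.1, h.2.1⟩⟩

lemma invar {R : Network d} {f : (Fin d → ℝ) → Fin d → ℝ} {c c' : Fin d → ℝ}
    {K : Set (Fin d → ℝ)} {a b : ℝ} (ha : 0 < a) (hK : Good f (positiveClass R c) c' K)
    (hb : ∀ y ∈ K, y ∈ positiveClass R c → ∀ i, a ≤ y i ∧ y i ≤ b) {x x' : ℝ → Fin d → ℝ}
    (hx : ∀ t, 0 ≤ t → HasDerivWithinAt x (x' t) (Set.Ici 0) t)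
    (hS : ∀ t, 0 ≤ t → x' t ∈ stoichSubspace R)
    (hf : ∀ t, 0 ≤ t → x t ∈ K ∩ positiveClass R c → x' t = f (x t))
    (h0 : x 0 ∈ K ∩ positiveClass R c) (t : ℝ) (ht : 0 ≤ t) : x t ∈ K ∩ positiveClass R c := by
  refine cont_ind (good_compact ha hK hb).isClosed
    (fun s hs => (hx s hs.1).continuousWithinAt.mono fun u hu => hu.1) h0 (fun s hs h => ?_) t
    ⟨ht, le_rfl⟩
  have h1 := (hx s hs.1).mono (Set.Ici_subset_Ici.2 hs.1)
  have h2 := h1.continuousWithinAt.mono Set.Ioi_subset_Ici_self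
  have h3 : ∀ᶠ u in 𝓝[>] s, ∀ i, 0 < x u i := eventually_all.2 fun i =>
    (continuousWithinAt_pi.1 h2 i).eventually (lt_mem_nhds (h.2.1 i))
  rw [hf s hs.1 h] at h1
  filter_upwards [hK.loc x s h.1 h.2 h1, h3, self_mem_nhdsWithin] with u a1 a2 a3
  refine ⟨a1, a2, ?_⟩
  have := (stoichSubspace R).add_mem (sub_mem_of_deriv _ hx hS (hs.1.trans (le_of_lt a3))) h0.2.2
  rwa [sub_add_sub_cancel] at this

theorem main
    (d : ℕ) (hd : 1 ≤ d) (R : Network d) (hR : IsWeaklyReversible R)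
    (k : (Fin d → ℕ) × (Fin d → ℕ) → ℝ) (hk : ∀ r ∈ R, 0 < k r)
    (c : Fin d → ℝ) (hc : ∀ i, 0 < c i) :
    ∃ K : Set (Fin d → ℝ), K ⊆ positiveClass R c ∧ K.Nonempty ∧ IsCompact K ∧ Convex ℝ K ∧
      (∀ x : ℝ → (Fin d → ℝ), IsForwardSolution (field R k) x → x 0 ∈ K →
        ∀ t : ℝ, 0 ≤ t → x t ∈ K) ∧
      (∀ x₀ ∈ positiveClass R c,
        (∃ x : ℝ → (Fin d → ℝ), IsForwardSolution (field R k) x ∧ x 0 = x₀) ∧
        (∀ x x' : ℝ → (Fin d → ℝ), IsForwardSolution (field R k) x →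
          IsForwardSolution (field R k) x' → x 0 = x₀ → x' 0 = x₀ →
          ∀ t : ℝ, 0 ≤ t → x t = x' t) ∧
        (∀ x : ℝ → (Fin d → ℝ), IsForwardSolution (field R k) x → x 0 = x₀ →
          (∀ t : ℝ, 0 ≤ t → ∀ i, 0 < x t i) ∧
          ∃ T : ℝ, 0 ≤ T ∧ ∀ t : ℝ, T ≤ t → x t ∈ K)) := by
  obtain ⟨K, a, b, ha, hK, hb⟩ := barrier hd R hR k hk c hc
  refine ⟨K ∩ positiveClass R c, Set.inter_subset_right, ⟨c, hK.mem, hc, by simp⟩,
    good_compact ha hK hb, hK.convex.inter ?_, fun x hx h0 =>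
      invar ha hK hb hx (fun _ _ => field_mem R k _) (fun _ _ _ => rfl) h0, fun x₀ hx₀ => ?_⟩
  · intro y hy z hz s t hs ht hst
    refine ⟨fun i => ?_, ?_⟩
    · simp only [Pi.add_apply, Pi.smul_apply, smul_eq_mul]
      have := hy.1 i
      have := hz.1 i
      rcases hs.eq_or_lt with rfl | hs
      · rw [zero_add] at hst; rw [hst]; linarith
      · positivity
    · have := (stoichSubspace R).add_mem ((stoichSubspace R).smul_mem s hy.2)
        ((stoichSubspace R).smul_mem t hz.2)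
      convert this using 1
      ext i
      simp only [Pi.add_apply, Pi.smul_apply, smul_eq_mul, Pi.sub_apply]
      linear_combination (c i) * hst
  obtain ⟨K₁, a₁, b₁, ha₁, hK₁, hb₁⟩ := barrier hd R hR k hk x₀ hx₀.1
  have hP : positiveClass R x₀ = positiveClass R c := by
    ext y
    refine and_congr_right fun _ => ⟨fun h => ?_, fun h => ?_⟩
    · simpa using (stoichSubspace R).add_mem h hx₀.2
    · simpa using (stoichSubspace R).sub_mem h hx₀.2
  rw [hP] at hK₁ hb₁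
  have hinv : ∀ x, IsForwardSolution (field R k) x → x 0 = x₀ → ∀ t, 0 ≤ t →
      x t ∈ K₁ ∩ positiveClass R c := fun x hx h0 =>
    invar ha₁ hK₁ hb₁ hx (fun _ _ => field_mem R k _) (fun _ _ _ => rfl) (h0 ▸ ⟨hK₁.mem, hx₀⟩)
  refine ⟨?_, fun x x' hx hx' h0 h0' t ht => ?_, fun x hx h0 => ⟨fun t ht => (hinv x hx h0 t ht).2.1, ?_⟩⟩
  · set cl : (Fin d → ℝ) → Fin d → ℝ := fun y i => max a₁ (min b₁ (y i)) with hcl
    have hcl1 : LipschitzWith 1 cl := LipschitzWith.of_dist_le_mul fun y z => by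
      rw [NNReal.coe_one, one_mul]
      refine (dist_pi_le_iff dist_nonneg).2 fun i => le_trans ?_ (dist_le_pi_dist y z i)
      simpa using ((LipschitzWith.id.const_min b₁).const_max a₁).dist_le_mul (y i) (z i)
    have hcl2 : ∀ y, cl y ∈ Set.Icc (fun _ => a₁) (fun _ => max a₁ b₁) := fun y =>
      ⟨fun i => le_max_left _ _, fun i => max_le_max le_rfl (min_le_left _ _)⟩
    obtain ⟨L₁, hL₁⟩ := field_lip R k (isCompact_Icc (a := fun _ => a₁) (b := fun _ => max a₁ b₁))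
    obtain ⟨L₂, hL₂⟩ := (isCompact_Icc (a := fun _ : Fin d => a₁)
      (b := fun _ => max a₁ b₁)).exists_bound_of_continuousOn (field_cont R k).continuousOn
    obtain ⟨x, h0, hx⟩ := global_exist (g := fun y => field R k (cl y)) (K := L₁ * 1) (L := L₂.toNNReal)
      (lipschitzOnWith_univ.1 (hL₁.comp hcl1.lipschitzOnWith fun y _ => hcl2 y))
      (fun y => (hL₂ _ (hcl2 y)).trans (le_coe_toNNReal _)) x₀
    have h1 : ∀ y ∈ K₁ ∩ positiveClass R c, field R k (cl y) = field R k y := fun y hy => by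
      congr 1
      ext i
      have := hb₁ y hy.1 hy.2 i
      simp only [hcl]
      rw [min_eq_right this.2, max_eq_right this.1]
    have h2 := invar ha₁ hK₁ hb₁ hx (fun _ _ => field_mem R k _) (fun _ _ h => h1 _ h)
      (h0 ▸ ⟨hK₁.mem, hx₀⟩)
    exact ⟨x, fun t ht => h1 _ (h2 t ht) ▸ hx t ht, h0⟩
  · obtain ⟨L, hL⟩ := field_lip R k (good_compact ha₁ hK₁ hb₁)
    exact ODE_solution_unique_of_mem_Icc_right (v := fun _ => field R k)
      (s := fun _ => K₁ ∩ positiveClass R c) (K := L) (fun _ _ => hL)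
      (fun s hs => (hx s hs.1).continuousWithinAt.mono fun u hu => hu.1)
      (fun s hs => (hx s hs.1).mono (Set.Ici_subset_Ici.2 hs.1)) (fun s hs => hinv x hx h0 s hs.1)
      (fun s hs => (hx' s hs.1).continuousWithinAt.mono fun u hu => hu.1)
      (fun s hs => (hx' s hs.1).mono (Set.Ici_subset_Ici.2 hs.1)) (fun s hs => hinv x' hx' h0' s hs.1)
      (h0.trans h0'.symm) ⟨ht, le_rfl⟩
  · obtain ⟨T, hT, h⟩ := hK.ent a₁ b₁ ha₁ x hx fun t ht =>
      ⟨(hinv x hx h0 t ht).2, hb₁ _ (hinv x hx h0 t ht).1 (hinv x hx h0 t ht).2⟩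
    exact ⟨T, hT, fun t ht => ⟨h t ht, (hinv x hx h0 t (hT.trans ht)).2⟩⟩

end Crest.Agent.H0122
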