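import Crest.Agent.H0122.Decr

set_option autoImplicit false
set_option linter.unusedSectionVars false

namespace Crest.Agent.H0122

open Finset Real Filter Topology

variable {ι : Type} [Fintype ι] [DecidableEq ι]

lemma ev_le {g : ℝ → ℝ} {g' t : ℝ} (h : HasDerivWithinAt g g' (Set.Ici t) t) (h0 : g t ≤ 0)
    (h1 : g t = 0 → g' < 0) : ∀ᶠ s in 𝓝[>] t, g s ≤ 0 := by
  rcases h0.eq_or_lt with h2 | h2
  · have h3 := (hasDerivWithinAt_iff_tendsto_slope' (by simp)).1 (h.mono Set.Ioi_subset_Ici_self)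
    filter_upwards [h3.eventually (gt_mem_nhds (h1 h2)), self_mem_nhdsWithin] with s hs hs'
    rw [slope_def_field, h2, sub_zero] at hs
    have : 0 < s - t := sub_pos.2 hs'
    exact (div_neg_iff.1 hs).elim (fun h => by linarith [h.2]) (fun h => h.1.le)
  · exact ((h.continuousWithinAt.mono Set.Ioi_subset_Ici_self).eventually (gt_mem_nhds h2)).mono
      fun s hs => hs.le

lemma val_deriv (p : (ι → ℝ) × ℝ) {x : ℝ → ι → ℝ} {x' : ι → ℝ} {S : Set ℝ} {t : ℝ}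
    (h : HasDerivWithinAt x x' S t) :
    HasDerivWithinAt (fun s => val p (x s)) (∑ i, p.1 i * x' i) S t :=
  (HasDerivWithinAt.fun_sum fun i _ => (hasDerivWithinAt_pi.1 h i).const_mul (p.1 i)).sub_const _

lemma val_cont (p : (ι → ℝ) × ℝ) : Continuous (val p) := by unfold val; fun_prop

structure Good (f : (ι → ℝ) → ι → ℝ) (P : Set (ι → ℝ)) (c : ι → ℝ) (K : Set (ι → ℝ)) : Prop where
  closed : IsClosed K
  convex : Convex ℝ K
  mem : c ∈ K
  loc : ∀ (x : ℝ → ι → ℝ) (t : ℝ), x t ∈ K → x t ∈ P → HasDerivWithinAt x (f (x t)) (Set.Ici t) t →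
    ∀ᶠ s in 𝓝[>] t, x s ∈ K
  ent : ∀ a b : ℝ, 0 < a → ∀ x : ℝ → ι → ℝ, (∀ t, 0 ≤ t → HasDerivWithinAt x (f (x t)) (Set.Ici 0) t) →
    (∀ t, 0 ≤ t → x t ∈ P ∧ ∀ i, a ≤ x t i ∧ x t i ≤ b) → ∃ T, 0 ≤ T ∧ ∀ t, T ≤ t → x t ∈ K

lemma good_univ (f : (ι → ℝ) → ι → ℝ) (P : Set (ι → ℝ)) (c : ι → ℝ) : Good f P c Set.univ :=
  ⟨isClosed_univ, convex_univ, trivial, fun _ _ _ _ _ => by simp, fun _ _ _ _ _ _ => ⟨0, le_rfl, by simp⟩⟩

lemma cont_ind {X : Type} [TopologicalSpace X] {x : ℝ → X} {K : Set X} (hK : IsClosed K) {a b : ℝ}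
    (hx : ContinuousOn x (Set.Icc a b)) (ha : x a ∈ K)
    (h : ∀ t ∈ Set.Ico a b, x t ∈ K → ∀ᶠ s in 𝓝[>] t, x s ∈ K) : ∀ t ∈ Set.Icc a b, x t ∈ K := by
  have h1 : IsClosed (x ⁻¹' K ∩ Set.Icc a b) := by
    rw [Set.inter_comm]; exact hx.preimage_isClosed_of_isClosed isClosed_Icc hK
  exact h1.Icc_subset_of_forall_mem_nhdsWithin ha fun t ht => h t ht.2 ht.1

lemma exists_box {y : ι → ℝ} (hy : ∀ i, 0 < y i) : ∃ a b : ℝ, 0 < a ∧ ∀ i, a < y i ∧ y i < b := by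
  have h1 : ∀ᶠ a in 𝓝[>] (0 : ℝ), ∀ i, a < y i :=
    eventually_all.2 fun i => nhdsWithin_le_nhds (gt_mem_nhds (hy i))
  have h2 : ∀ᶠ b in atTop, ∀ i, y i < b := eventually_all.2 fun i => eventually_gt_atTop _
  obtain ⟨a, ha, ha'⟩ := (h1.and self_mem_nhdsWithin).exists
  obtain ⟨b, hb⟩ := h2.exists
  exact ⟨a, b, ha', fun i => ⟨ha i, hb i⟩⟩

lemma Good.add {f : (ι → ℝ) → ι → ℝ} {P : Set (ι → ℝ)} {c : ι → ℝ} {K : Set (ι → ℝ)}
    (hK : Good f P c K) (hf : Continuous f) (hP0 : ∀ y ∈ P, ∀ i, 0 < y i)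
    (hPc : ∀ a b : ℝ, 0 < a → IsCompact {y ∈ P | ∀ i, a ≤ y i ∧ y i ≤ b})
    {F : Set ((ι → ℝ) × ℝ)} {lv : ℝ}
    (hF : ∀ a b : ℝ, 0 < a → {p ∈ F | ∃ x : ι → ℝ, (∀ i, a ≤ x i ∧ x i ≤ b) ∧ lv ≤ val p x}.Finite)
    (hc : ∀ p ∈ F, val p c ≤ lv)
    (hdec : ∀ y ∈ K, y ∈ P → ∀ p ∈ F, (∀ q ∈ F, val q y ≤ val p y) → lv ≤ val p y →
      ∑ i, p.1 i * f y i < 0) : Good f P c (K ∩ {y | ∀ p ∈ F, val p y ≤ lv}) := by
  have hcl : IsClosed (K ∩ {y | ∀ p ∈ F, val p y ≤ lv}) := by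
    refine hK.closed.inter ?_
    simp only [Set.ofPred_forall]
    exact isClosed_iInter fun p => isClosed_iInter fun _ => isClosed_le (val_cont p) continuous_const
  have hloc : ∀ (x : ℝ → ι → ℝ) (t : ℝ), x t ∈ K ∩ {y | ∀ p ∈ F, val p y ≤ lv} → x t ∈ P →
      HasDerivWithinAt x (f (x t)) (Set.Ici t) t →
      ∀ᶠ s in 𝓝[>] t, x s ∈ K ∩ {y | ∀ p ∈ F, val p y ≤ lv} := by
    intro x t h1 h2 h3
    obtain ⟨a, b, ha, hab⟩ := exists_box (hP0 _ h2)
    have h4 := h3.continuousWithinAt.mono Set.Ioi_subset_Ici_self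
    have h5 : ∀ᶠ s in 𝓝[>] t, ∀ i, a ≤ x s i ∧ x s i ≤ b := eventually_all.2 fun i =>
      (((continuousWithinAt_pi.1 h4 i).eventually (lt_mem_nhds (hab i).1)).and
        ((continuousWithinAt_pi.1 h4 i).eventually (gt_mem_nhds (hab i).2))).mono
        fun s hs => ⟨hs.1.le, hs.2.le⟩
    have h6 := (eventually_all_finite (hF a b ha) (l := 𝓝[>] t)
      (p := fun p s => val p (x s) - lv ≤ 0)).2 fun p hp =>
        ev_le ((val_deriv p h3).sub_const lv) (sub_nonpos.2 (h1.2 p hp.1)) fun h =>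
          hdec _ h1.1 h2 p hp.1 (fun q hq => by linarith [h1.2 q hq]) (by linarith)
    filter_upwards [hK.loc x t h1.1 h2 h3, h5, h6] with s a1 a2 a3
    refine ⟨a1, fun p hp => ?_⟩
    by_contra a4
    push Not at a4
    linarith [a3 p ⟨hp, _, a2, a4.le⟩]
  refine ⟨hcl, hK.convex.inter ?_, ⟨hK.mem, hc⟩, hloc, ?_⟩
  · intro y hy z hz a b ha hb hab p hp
    have h1 : val p (a • y + b • z) = a * val p y + b * val p z := by
      unfold val
      simp only [Pi.add_apply, Pi.smul_apply, smul_eq_mul, mul_add, sum_add_distrib, mul_sub, mul_sum]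
      have e1 : ∀ (a : ℝ) (y : ι → ℝ), ∑ i, p.1 i * (a * y i) = ∑ i, a * (p.1 i * y i) :=
        fun a y => sum_congr rfl fun i _ => by ring
      rw [e1, e1]
      linear_combination p.2 * hab
    rw [h1]
    have a1 := mul_le_mul_of_nonneg_left (hy p hp) ha
    have a2 := mul_le_mul_of_nonneg_left (hz p hp) hb
    have a3 : a * lv + b * lv = lv := by rw [← add_mul, hab, one_mul]
    linarith
  · intro a b ha x hx hbox
    obtain ⟨T₀, hT₀, hT⟩ := hK.ent a b ha x hx hbox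
    have hxd : ∀ t, 0 ≤ t → HasDerivWithinAt x (f (x t)) (Set.Ici t) t := fun t ht =>
      (hx t ht).mono (Set.Ici_subset_Ici.2 ht)
    have hxc : ∀ s t, 0 ≤ s → ContinuousOn x (Set.Icc s t) := fun s t hs u hu =>
      (hx u (hs.trans hu.1)).continuousWithinAt.mono fun v hv => hs.trans hv.1
    set F₀ := {p ∈ F | ∃ x : ι → ℝ, (∀ i, a ≤ x i ∧ x i ≤ b) ∧ lv ≤ val p x} with hF₀
    have h1 : ∀ᶠ η in 𝓝[>] (0 : ℝ), ∀ p ∈ F₀, ∀ y ∈ K, y ∈ P → (∀ i, a ≤ y i ∧ y i ≤ b) →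
        (∀ q ∈ F, val q y ≤ val p y) → lv ≤ val p y → ∑ i, p.1 i * f y i < -η := by
      refine (eventually_all_finite (hF a b ha)).2 fun p hp => ?_
      have a1 : IsCompact ({y ∈ P | ∀ i, a ≤ y i ∧ y i ≤ b} ∩
          (K ∩ {y | ∀ q ∈ F, val q y ≤ val p y} ∩ {y | lv ≤ val p y})) := by
        refine (hPc a b ha).inter_right ((hK.closed.inter ?_).inter
          (isClosed_le continuous_const (val_cont p)))
        simp only [Set.ofPred_forall]
        exact isClosed_iInter fun q => isClosed_iInter fun _ => isClosed_le (val_cont q) (val_cont p)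
      obtain ⟨η, hη, a2⟩ := a1.exists_forall_le' (f := fun y => -∑ i, p.1 i * f y i) (a := 0)
        (by fun_prop) fun y hy => neg_pos.2 (hdec y hy.2.1.1 hy.1.1 p hp.1 hy.2.1.2 hy.2.2)
      filter_upwards [nhdsWithin_le_nhds (gt_mem_nhds hη)] with η' hη' y b1 b2 b3 b4 b5
      linarith [a2 y ⟨⟨b2, b3⟩, ⟨b1, b4⟩, b5⟩]
    obtain ⟨η, hη, hη0⟩ := (h1.and self_mem_nhdsWithin).exists
    replace hη0 : 0 < η := hη0
    have h2 : ∀ᶠ Λ in atTop, ∀ p ∈ F₀, val p (x T₀) ≤ Λ :=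
      (eventually_all_finite (hF a b ha)).2 fun p _ => eventually_ge_atTop _
    obtain ⟨Λ, hΛ, hΛ'⟩ := (h2.and (eventually_ge_atTop lv)).exists
    set T₁ := T₀ + (Λ - lv) / η with hT₁
    have hT01 : T₀ ≤ T₁ := le_add_of_nonneg_right (div_nonneg (by linarith) hη0.le)
    have hl : Λ - η * (T₁ - T₀) = lv := by rw [hT₁]; field_simp; ring
    have h3 := cont_ind (x := fun t => (t, x t))
      (K := {z : ℝ × (ι → ℝ) | ∀ p ∈ F₀, val p z.2 - (Λ - η * (z.1 - T₀)) ≤ 0}) (a := T₀) (b := T₁)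
      (by
        simp only [Set.ofPred_forall]
        exact isClosed_iInter fun p => isClosed_iInter fun _ => isClosed_le
          (((val_cont p).comp continuous_snd).sub (by fun_prop)) continuous_const)
      (continuousOn_id.prodMk (hxc _ _ hT₀)) (fun p hp => by simpa using hΛ p hp) (fun t ht h => by
        have ht0 : 0 ≤ t := hT₀.trans ht.1
        refine (eventually_all_finite (hF a b ha)).2 fun p hp => ?_
        have a1 : HasDerivWithinAt (fun s => Λ - η * (s - T₀)) (-(η * 1)) (Set.Ici t) t :=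
          (((hasDerivAt_id t).sub_const T₀).const_mul η).hasDerivWithinAt.const_sub Λ
        refine ev_le ((val_deriv p (hxd t ht0)).sub a1) (h p hp) fun a2 => ?_
        have a3 : lv ≤ Λ - η * (t - T₀) := by nlinarith [ht.2]
        have := hη p hp _ (hT t ht.1) (hbox t ht0).1 (hbox t ht0).2 (fun q hq => by
          by_cases a4 : lv ≤ val q (x t)
          · linarith [h q ⟨hq, _, (hbox t ht0).2, a4⟩]
          · linarith) (by linarith)
        linarith) T₁ ⟨hT01, le_rfl⟩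
    have hT10 := hT₀.trans hT01
    refine ⟨T₁, hT10, fun t ht => cont_ind hcl (hxc T₁ t hT10) ⟨hT _ hT01, fun p hp => ?_⟩
      (fun s hs h => hloc x s h (hbox s (hT10.trans hs.1)).1 (hxd s (hT10.trans hs.1))) t ⟨ht, le_rfl⟩⟩
    by_contra a4
    push Not at a4
    have := h3 p ⟨hp, _, (hbox T₁ hT10).2, a4.le⟩
    simp only at this
    linarith

end Crest.Agent.H0122
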