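import Crest.Agent.H0122.Step

set_option autoImplicit false
set_option linter.unusedSectionVars false

namespace Crest.Agent.H0122

open Finset Real

variable {ι : Type} [Fintype ι] [DecidableEq ι]

def val (p : (ι → ℝ) × ℝ) (x : ι → ℝ) : ℝ := ∑ i, p.1 i * x i - p.2

lemma val_add (p q : (ι → ℝ) × ℝ) (x : ι → ℝ) : val (p + q) x = val p x + val q x := by
  unfold val
  simp only [Prod.fst_add, Prod.snd_add, Pi.add_apply, add_mul, sum_add_distrib]
  ring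

lemma val_zero (x : ι → ℝ) : val 0 x = 0 := by simp [val]

def Compat (N₀ : ℕ) (L : ℝ) (w z : ι → ℝ) : Prop :=
  ∀ v : ι → ℤ, nrm v ≤ N₀ → 0 < dot v w → L ≤ dot v z

structure Out (N₀ : ℕ) (C : ℝ) (R : Finset ι) (u c : ι → ℝ) (Q L s : ℝ)
    (F : Set ((ι → ℝ) × ℝ)) : Prop where
  zero : 0 ∈ F
  slope : ∀ p ∈ F, ∀ i, p.1 i ≤ 0 ∧ (i ∉ R → p.1 i = 0)
  gain : ∀ p ∈ F, -p.2 ≤ Q * exp (s - L)
  fin : ∀ x : ι → ℝ, (∀ i, 0 < x i) → ∀ l : ℝ, {p ∈ F | l ≤ val p x}.Finite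
  max : ∀ x : ι → ℝ, (∀ i, 0 < x i) → (∀ i, i ∉ R → |log (x i) - c i| ≤ L) →
    |log (∑ i ∈ R, x i) - s| ≤ L → ∀ p ∈ F, (∀ q ∈ F, val q x ≤ val p x) →
    Compat N₀ L (u + p.1) (fun i => log (x i)) ∧ ∀ i, |u i + p.1 i - log (x i)| ≤ C * L

def Claim (ι : Type) [Fintype ι] [DecidableEq ι] (r N₀ N : ℕ) (K α Lmin C : ℝ) : Prop :=
  ∀ (R : Finset ι) (u c : ι → ℝ) (n : ι → ℤ) (n₀ : ℤ) (Q L s : ℝ), R.Nonempty → R.card ≤ r →
    Mar N K L u c → (∀ i, u i = Q * n i) → (∀ i ∈ R, n i = n₀) → (∀ i ∈ R, c i = s) → 0 < Q →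
    Q ≤ 1 → 1 ≤ Q * exp L → (∀ i, |u i - c i| ≤ α * L) → Lmin ≤ L → ∃ F, Out N₀ C R u c Q L s F

def bs (R : Finset ι) (Q : ℝ) (η : ℤ → ℝ) (j₀ j : ℤ) : (ι → ℝ) × ℝ :=
  (fun i => if i ∈ R then Q * ((j : ℝ) - j₀) else 0, η j - η j₀)

lemma val_bs (R : Finset ι) (Q : ℝ) (η : ℤ → ℝ) (j₀ j : ℤ) (x : ι → ℝ) :
    val (bs R Q η j₀ j) x = Q * ((j : ℝ) - j₀) * ∑ i ∈ R, x i - (η j - η j₀) := by
  unfold val bs
  simp only [ite_mul, zero_mul]
  rw [Fintype.sum_ite_mem, mul_sum]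

lemma bs_self (R : Finset ι) (Q : ℝ) (η : ℤ → ℝ) (j : ℤ) : bs R Q η j j = 0 := by
  unfold bs; ext <;> simp

structure Layer (N₀ : ℕ) (R : Finset ι) (u c : ι → ℝ) (Q Lt E C : ℝ) (j₀ : ℤ) (θ η : ℤ → ℝ)
    (G : ℤ → Set ((ι → ℝ) × ℝ)) : Prop where
  mono : Monotone θ
  close : ∀ j : ℤ, |θ j - Q * j| ≤ E
  step : ∀ j, η (j + 1) = η j + Q * exp (θ j)
  base : ∀ j, bs R Q η j₀ j ∈ G j
  slope : ∀ j : ℤ, ∀ q ∈ G j, ∀ i, (i ∈ R → q.1 i ≤ Q * ((j : ℝ) - j₀)) ∧ (i ∉ R → q.1 i = 0)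
  gain : ∀ j, ∀ q ∈ G j, -q.2 ≤ η j₀ - η j + Q * exp (θ (j - 1) - 1)
  fin : ∀ j, ∀ x : ι → ℝ, (∀ i, 0 < x i) → ∀ l : ℝ, {p ∈ G j | l ≤ val p x}.Finite
  max : ∀ j, ∀ q ∈ G j, ∀ x : ι → ℝ, (∀ i, 0 < x i) → (∀ q' ∈ G j, val q' x ≤ val q x) →
    val (bs R Q η j₀ (j - 1)) x ≤ val q x → val (bs R Q η j₀ (j + 1)) x ≤ val q x →
    ∑ i ∈ R, x i ≤ exp (θ j + 1) ∧ ((∀ i, i ∉ R → |log (x i) - c i| ≤ Lt) →
      Compat N₀ Lt (u + q.1) (fun i => log (x i)) ∧ ∀ i, |u i + q.1 i - log (x i)| ≤ C)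

lemma exists_eta (g : ℤ → ℝ) : ∃ η : ℤ → ℝ, ∀ j, η (j + 1) = η j + g j := by
  refine ⟨fun j => (∑ i ∈ range j.toNat, g i) - ∑ i ∈ range (-j).toNat, g (-(i + 1)), fun j => ?_⟩
  rcases le_or_gt 0 j with h | h
  · obtain ⟨k, rfl⟩ := Int.eq_ofNat_of_zero_le h
    have h1 : ((k : ℤ) + 1).toNat = k + 1 := by omega
    have h2 : (-((k : ℤ) + 1)).toNat = 0 := by omega
    have h3 : (-(k : ℤ)).toNat = 0 := by omega
    simp only [h1, h2, h3, Int.toNat_natCast, sum_range_succ, range_zero, sum_empty]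
    ring
  · obtain ⟨k, hk⟩ := Int.eq_ofNat_of_zero_le (by omega : 0 ≤ -j - 1)
    obtain rfl : j = -((k : ℤ) + 1) := by omega
    have h1 : (-((k : ℤ) + 1) + 1).toNat = 0 := by omega
    have h2 : (-((k : ℤ) + 1)).toNat = 0 := by omega
    have h3 : (-(-((k : ℤ) + 1) + 1)).toNat = k := by omega
    have h4 : (-(-((k : ℤ) + 1))).toNat = k + 1 := by omega
    simp only [h1, h2, h3, h4, sum_range_succ, range_zero, sum_empty]
    ring

lemma val_le_of_nonpos {p : (ι → ℝ) × ℝ} {x : ι → ℝ} (hp : ∀ i, p.1 i ≤ 0) (hx : ∀ i, 0 < x i) :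
    val p x ≤ -p.2 := by
  unfold val
  have : ∑ i, p.1 i * x i ≤ 0 := sum_nonpos fun i _ => mul_nonpos_of_nonpos_of_nonneg (hp i) (hx i).le
  linarith

set_option maxHeartbeats 1000000 in
lemma layer {r N₀ N N' P : ℕ} {K K' L Lt D Q A S α Lmin C : ℝ} {u c : ι → ℝ} {n : ι → ℤ}
    {R : Finset ι} {n₀ : ℤ} (IH : Claim ι r N₀ N' K' α Lmin C) (hC : 0 ≤ C)
    (hR : R.Nonempty) (hN' : 2 ≤ N') (hN : 2 * N' ^ 2 ≤ N) (hM : Mar N K L u c)
    (hu : ∀ i, u i = Q * n i) (hQ0 : 0 < Q) (hQ1 : Q ≤ 1) (hD : ∀ i, |u i - c i| ≤ D)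
    (hL0 : 0 ≤ L) (hL : L ≤ Lt) (hK' : 1 ≤ K') (hA : A = K' * (Lt + 2)) (hS : S = N * Lt)
    (hK : (N' : ℝ) ^ 2 * (A + S + K' * (Lt + A + S + 1)) ≤ K * L) (hP0 : 0 < P)
    (hP : 2 * (N' * D) ≤ P) (hr : R.card ≤ r) (hn : ∀ i ∈ R, n i = n₀) (hmin : Lmin ≤ Lt)
    (hQ : 1 ≤ Q / (N'.factorial * P) * exp Lt) (hα : N' * D + A + 2 ≤ α * Lt) (hα0 : 0 ≤ α) :
    ∃ θ η G, Layer N₀ R u c (Q / (N'.factorial * P)) Lt (N' * D + A + 1) (C * (Lt + A + S + 1))
      (n₀ * (N'.factorial * P)) θ η G ∧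
      (∀ i, i ∉ R → c i - A - S ≤ θ (n i * (N'.factorial * P) - 1) ∧
        θ (n i * (N'.factorial * P) - 1) ≤ c i - A) := by
  obtain ⟨θ, t0, t1, t2, t3, t4⟩ := step hR hN' hN hM hu hQ0 hQ1 hD hL0 hL hK' hA hS hK hP0 hP
  set Q' : ℝ := Q / (N'.factorial * P) with hQ'
  have hF : (1 : ℝ) ≤ N'.factorial := by exact_mod_cast Nat.factorial_pos N'
  have hP' : (1 : ℝ) ≤ P := by exact_mod_cast hP0
  have hFP : (1 : ℝ) ≤ N'.factorial * P := by nlinarith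
  have hQ'0 : 0 < Q' := by positivity
  have hQ'1 : Q' ≤ 1 := (div_le_self hQ0.le hFP).trans hQ1
  have hLt : 0 ≤ Lt := hL0.trans hL
  have hN'r : (2 : ℝ) ≤ N' := by exact_mod_cast hN'
  have hD0 : 0 ≤ D := (abs_nonneg _).trans (hD hR.choose)
  have hA1 : 0 ≤ A := by rw [hA]; positivity
  have tmono : ∀ j, θ (j - 1) ≤ θ j := fun j => t0 (by omega)
  have hQQ : Q = Q' * (N'.factorial * P) := by rw [hQ']; field_simp
  obtain ⟨η, hη⟩ := exists_eta fun j => Q' * exp (θ j)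
  have hch : ∀ j : ℤ, ∃ F, Out N₀ C R (upd R (Q' * j) u) (upd R ((θ (j - 1) + θ j) / 2) c) Q'
      (Lt + (θ j - θ (j - 1)) / 2 + 1) ((θ (j - 1) + θ j) / 2) F := by
    intro j
    have := tmono j
    refine IH R _ _ (fun i => if i ∈ R then j else n i * (N'.factorial * P)) j Q' _ _ hR hr (t1 j)
      (fun i => ?_) (fun i hi => if_pos hi) (fun i hi => if_pos hi) hQ'0 hQ'1
      (hQ.trans (mul_le_mul_of_nonneg_left (exp_le_exp.2 (by linarith)) hQ'0.le)) (fun i => ?_)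
      (by linarith)
    · unfold upd
      split_ifs
      · rfl
      · rw [hu, hQQ]; push_cast; ring
    · have h1 : α * Lt ≤ α * (Lt + (θ j - θ (j - 1)) / 2 + 1) :=
        mul_le_mul_of_nonneg_left (by linarith) hα0
      refine le_trans ?_ (hα.trans h1)
      unfold upd
      split_ifs
      · have h2 := abs_le.1 (t3 j)
        have h3 := abs_le.1 (t3 (j - 1))
        push_cast at h3
        rw [abs_le]
        constructor <;> nlinarith
      · refine (hD i).trans ?_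
        nlinarith
  choose F hF using hch
  refine ⟨θ, η, fun j => (fun p => bs R Q' η (n₀ * (N'.factorial * P)) j + p) '' F j, ⟨t0, t3, hη,
    fun j => ⟨0, (hF j).zero, add_zero _⟩, ?_, ?_, ?_, ?_⟩, t4⟩
  · rintro j _ ⟨p, hp, rfl⟩ i
    have := (hF j).slope p hp i
    simp only [bs, Prod.fst_add, Pi.add_apply]
    constructor
    · intro hi
      rw [if_pos hi]; linarith [this.1]
    · intro hi
      rw [if_neg hi, this.2 hi, add_zero]
  · rintro j _ ⟨p, hp, rfl⟩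
    have h1 := (hF j).gain p hp
    have h2 : Q' * exp ((θ (j - 1) + θ j) / 2 - (Lt + (θ j - θ (j - 1)) / 2 + 1)) ≤
      Q' * exp (θ (j - 1) - 1) := mul_le_mul_of_nonneg_left (exp_le_exp.2 (by linarith)) hQ'0.le
    simp only [bs, Prod.snd_add]
    linarith
  · intro j x hx l
    refine (((hF j).fin x hx (l - val (bs R Q' η (n₀ * (N'.factorial * P)) j) x)).image
      (fun p => bs R Q' η (n₀ * (N'.factorial * P)) j + p)).subset ?_
    rintro _ ⟨⟨p, hp, rfl⟩, h⟩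
    refine ⟨p, ⟨hp, ?_⟩, rfl⟩
    rw [val_add] at h
    linarith
  · rintro j _ ⟨p, hp, rfl⟩ x hx h1 h2 h3
    have h4 := (val_le_of_nonpos (fun i => ((hF j).slope p hp i).1) hx).trans ((hF j).gain p hp)
    have h5 : Q' * exp ((θ (j - 1) + θ j) / 2 - (Lt + (θ j - θ (j - 1)) / 2 + 1)) ≤
      Q' * exp (θ (j - 1) - 1) := mul_le_mul_of_nonneg_left (exp_le_exp.2 (by linarith)) hQ'0.le
    have h6 := hη (j - 1)
    have h7 := hη j
    rw [sub_add_cancel] at h6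
    simp only [val_add, val_bs] at h2 h3
    push_cast at h2 h3
    have hX : 0 < ∑ i ∈ R, x i := sum_pos (fun i _ => hx i) hR
    set X := ∑ i ∈ R, x i with hXd
    have e1 : ∀ t : ℝ, 2 * exp (t - 1) ≤ exp t := by
      intro t
      have : exp t = exp (t - 1) * exp 1 := by rw [← exp_add]; ring_nf
      nlinarith [add_one_le_exp (1 : ℝ), exp_pos (t - 1)]
    have h8 : exp (θ (j - 1) - 1) ≤ X := by
      have : Q' * exp (θ (j - 1) - 1) ≤ Q' * X := by nlinarith [e1 (θ (j - 1))]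
      exact le_of_mul_le_mul_left this hQ'0
    have h9 : X ≤ exp (θ j + 1) := by
      have a1 : exp (θ (j - 1) - 1) ≤ exp (θ j) := exp_le_exp.2 (by linarith [tmono j])
      have a2 := e1 (θ j + 1)
      rw [add_sub_cancel_right] at a2
      have : Q' * X ≤ Q' * exp (θ j + 1) := by nlinarith
      exact le_of_mul_le_mul_left this hQ'0
    refine ⟨h9, fun hcl => ?_⟩
    have h10 := (hF j).max x hx (fun i hi => by
        unfold upd; rw [if_neg hi]; linarith [hcl i hi, tmono j])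
      (by
        have a1 := (le_log_iff_exp_le hX).2 h8
        have a2 := (log_le_iff_le_exp hX).2 h9
        rw [abs_le]; constructor <;> linarith) p hp (fun q hq => by
        have := h1 _ ⟨q, hq, rfl⟩
        simp only [val_add] at this
        linarith)
    have he : u + (bs R Q' η (n₀ * (N'.factorial * P)) j + p).1 = upd R (Q' * j) u + p.1 := by
      ext i
      simp only [bs, upd, Prod.fst_add, Pi.add_apply]
      split_ifs with hi
      · rw [hu, hn i hi, hQQ]; push_cast; ring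
      · ring
    refine ⟨fun v hv hv' => ?_, fun i => ?_⟩
    · rw [he] at hv'
      linarith [h10.1 v hv hv', tmono j]
    · have := congrFun he i
      simp only [Pi.add_apply] at this
      rw [this]
      exact (h10.2 i).trans (mul_le_mul_of_nonneg_left (by linarith [t2 j]) hC)

/-- gain bound -/
lemma gain_bound {Q E : ℝ} {θ η : ℤ → ℝ} (hQ0 : 0 < Q) (hQ1 : Q ≤ 1) (h0 : Monotone θ)
    (h1 : ∀ j : ℤ, |θ j - Q * j| ≤ E) (h2 : ∀ j, η (j + 1) = η j + Q * exp (θ j)) {j j₁ : ℤ}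
    (h : j ≤ j₁) : η j₁ - η j ≤ (2 * E + 3) * exp (θ (j₁ - 1)) := by
  have b1 : ∀ a b : ℤ, a ≤ b → η b - η a ≤ exp (Q * b + E) - exp (Q * a + E) := by
    intro a b hab
    induction b, hab using Int.leInduction with
    | base => simp
    | succ b hb ih =>
      have a1 : exp (θ b) ≤ exp (Q * b + E) := exp_le_exp.2 (by linarith [(abs_le.1 (h1 b)).2])
      have a2 : exp (Q * ((b + 1 : ℤ) : ℝ) + E) = exp (Q * b + E) * exp Q := by
        rw [← exp_add]; push_cast; ring_nf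
      rw [h2, a2]
      nlinarith [add_one_le_exp Q, exp_pos (Q * b + E)]
  have b2 : ∀ a b : ℤ, a ≤ b → b ≤ j₁ → η b - η a ≤ Q * (b - a) * exp (θ (j₁ - 1)) := by
    intro a b hab
    induction b, hab using Int.leInduction with
    | base => simp
    | succ b hb ih =>
      intro hb'
      have a1 : exp (θ b) ≤ exp (θ (j₁ - 1)) := exp_le_exp.2 (h0 (by omega))
      have := ih (by omega)
      rw [h2]; push_cast
      nlinarith
  have hE : 0 ≤ E := (abs_nonneg _).trans (h1 0)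
  set t := θ (j₁ - 1) with ht
  set i₀ : ℤ := ⌊(t - E) / Q⌋ with hi₀
  have c1 : Q * i₀ + E ≤ t := by
    have := Int.floor_le ((t - E) / Q)
    rw [le_div_iff₀ hQ0] at this
    linarith
  have c2 : Q * (j₁ - i₀) ≤ 2 * E + 2 := by
    have a1 := Int.lt_floor_add_one ((t - E) / Q)
    rw [div_lt_iff₀ hQ0] at a1
    have a2 := (abs_le.1 (h1 (j₁ - 1))).1
    push_cast at a2
    nlinarith
  have c3 := exp_pos t
  by_cases d1 : i₀ ≤ j
  · have a1 := b2 j j₁ h le_rfl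
    have a2 : (i₀ : ℝ) ≤ j := by exact_mod_cast d1
    have a3 : Q * (j₁ - j) ≤ 2 * E + 3 := by nlinarith
    nlinarith
  · by_cases d2 : j₁ ≤ i₀
    · have a1 := b1 j j₁ h
      have a2 : (j₁ : ℝ) ≤ i₀ := by exact_mod_cast d2
      have a3 : exp (Q * j₁ + E) ≤ exp t := exp_le_exp.2 (by nlinarith)
      nlinarith [exp_pos (Q * j + E)]
    · have a1 := b1 j i₀ (by omega)
      have a2 := b2 i₀ j₁ (by omega) le_rfl
      have a3 : exp (Q * i₀ + E) ≤ exp t := exp_le_exp.2 c1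
      nlinarith [exp_pos (Q * j + E)]

end Crest.Agent.H0122
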