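import Crest.Agent.H0122.Layer

set_option autoImplicit false
set_option linter.unusedSectionVars false

namespace Crest.Agent.H0122

open Finset Real

variable {ι : Type} [Fintype ι] [DecidableEq ι]

lemma fin_lin {a b : ℝ} (ha : 0 < a) (j₀ : ℤ) : {j : ℤ | j ≤ j₀ ∧ b ≤ a * j}.Finite := by
  refine (Set.finite_Icc ⌊b / a⌋ j₀).subset fun j hj => ⟨?_, hj.1⟩
  have h := Int.floor_le (b / a)
  have h2 : b / a ≤ j := by rw [div_le_iff₀ ha]; linarith [hj.2]
  exact_mod_cast h.trans h2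

lemma val_le_slope {R : Finset ι} {q : (ι → ℝ) × ℝ} {t : ℝ} {x : ι → ℝ} (hx : ∀ i, 0 < x i)
    (h : ∀ i, (i ∈ R → q.1 i ≤ t) ∧ (i ∉ R → q.1 i = 0)) : val q x ≤ t * ∑ i ∈ R, x i - q.2 := by
  unfold val
  rw [mul_sum, ← Fintype.sum_ite_mem R]
  gcongr with i
  split_ifs with hi
  · exact mul_le_mul_of_nonneg_right ((h i).1 hi) (hx i).le
  · rw [(h i).2 hi, zero_mul]

set_option maxHeartbeats 2000000 in
lemma node {r N₀ N N' P : ℕ} {K K' α α' Lmin C C' : ℝ} (IH : Claim ι r N₀ N' K' α' Lmin C')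
    (hC' : 0 ≤ C') (hN' : 2 ≤ N') (hN : 2 * N' ^ 2 ≤ N) (hN₀ : N₀ ≤ N) (hK' : 4 ≤ K')
    (hα' : 0 ≤ α')
    {R : Finset ι} {u c : ι → ℝ} {n : ι → ℤ} {n₀ : ℤ} {Q L s : ℝ} (hr : R.card ≤ r + 1)
    (hM : Mar N K L u c) (hu : ∀ i, u i = Q * n i) (hn : ∀ i ∈ R, n i = n₀) (hs : ∀ i ∈ R, c i = s)
    (hQ0 : 0 < Q) (hQ1 : Q ≤ 1) (hQ : 1 ≤ Q * exp L) (hD : ∀ i, |u i - c i| ≤ α * L)
    (hmin : Lmin ≤ L) (hL : 1 ≤ L) (l A S : ℕ → ℝ) (hA : ∀ m, A m = K' * (l m + 2))
    (hS : ∀ m, S m = N * l m) (l1 : ∀ m, L ≤ l m) (l2 : ∀ m ≤ r, 2 * L ≤ l m)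
    (l3 : ∀ m ≤ r, A (m + 1) + S (m + 1) + 2 ≤ l m)
    (hK : ∀ m, (N' : ℝ) ^ 2 * (A m + S m + K' * (l m + A m + S m + 1)) ≤ K * L)
    (hK0 : N₀ * l 0 + L ≤ K * L) (hP0 : 0 < P) (hP : 2 * (N' * (α * L)) ≤ P)
    (hFP : (N'.factorial * P : ℝ) ≤ exp L) (hE : ∀ m, N' * (α * L) + A m + 2 ≤ α' * L)
    (hE' : 2 * (α' * L) + 2 ≤ exp L) (hC1 : α * L + l 0 ≤ C * L)
    (hC2 : ∀ m, C' * (l m + A m + S m + 1) ≤ C * L) : ∃ F, Out N₀ C R u c Q L s F := by
  set Q' : ℝ := Q / (N'.factorial * P) with hQ'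
  have hF : (1 : ℝ) ≤ N'.factorial := by exact_mod_cast Nat.factorial_pos N'
  have hP' : (1 : ℝ) ≤ P := by exact_mod_cast hP0
  have hFP' : (1 : ℝ) ≤ N'.factorial * P := by nlinarith
  have hQ'0 : 0 < Q' := by positivity
  have hQ'1 : Q' ≤ 1 := (div_le_self hQ0.le hFP').trans hQ1
  have hQ'e : 1 ≤ Q' * exp (2 * L) := by
    have : Q' * exp (2 * L) = Q * exp L * (exp L / (N'.factorial * P)) := by
      rw [hQ', two_mul, exp_add]; ring
    rw [this]
    exact one_le_mul_of_one_le_of_one_le hQ ((one_le_div (by positivity)).2 hFP)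
  set jt : ℤ := n₀ * (N'.factorial * P) with hjt
  have hcard : ∀ R' ⊂ R, R'.card ≤ r := fun R' h => by have := card_lt_card h; omega
  have hAl : ∀ m, 4 * l m + 8 ≤ A m := fun m => by
    rw [hA]; nlinarith [l1 m]
  have hlay : ∀ R' : Finset ι, R'.Nonempty → R' ⊂ R → ∃ θ η G, Layer N₀ R' u c Q' (l R'.card)
      (N' * (α * L) + A R'.card + 1) (C' * (l R'.card + A R'.card + S R'.card + 1)) jt θ η G ∧
      s - A R'.card - S R'.card ≤ θ (jt - 1) ∧ θ (jt - 1) ≤ s - A R'.card := by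
    intro R' h1 h2
    obtain ⟨θ, η, G, h3, h4⟩ := layer IH hC' h1 hN' hN hM hu hQ0 hQ1 hD (by linarith) (l1 R'.card)
      (by linarith) (hA _) (hS _) (hK _) hP0 hP (hcard _ h2) (fun i hi => hn i (h2.1 hi))
      (hmin.trans (l1 _)) (hQ'e.trans (mul_le_mul_of_nonneg_left
        (exp_le_exp.2 (l2 _ (hcard _ h2))) hQ'0.le))
      ((hE _).trans (mul_le_mul_of_nonneg_left (l1 _) hα')) hα'
    obtain ⟨i, hi, hi'⟩ := exists_of_ssubset h2
    have := h4 i hi'
    rw [hn i hi, hs i hi] at this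
    exact ⟨θ, η, G, h3, this⟩
  choose! θ η G hlay using hlay
  set F : Set ((ι → ℝ) × ℝ) := {q | q = 0 ∨ ∃ R' : Finset ι, R'.Nonempty ∧ R' ⊂ R ∧ ∃ j < jt, q ∈ G R' j}
    with hFd
  have hgain : ∀ R' : Finset ι, R'.Nonempty → R' ⊂ R → ∀ j < jt, ∀ q ∈ G R' j,
      -q.2 ≤ exp (L + s - A R'.card) := by
    intro R' h1 h2 j hj q hq
    obtain ⟨h3, -, h4⟩ := hlay R' h1 h2
    have a1 := h3.gain j q hq
    have a2 := gain_bound hQ'0 hQ'1 h3.mono h3.close h3.step hj.le
    have a3 : exp (θ R' (j - 1) - 1) ≤ exp (θ R' (jt - 1)) :=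
      exp_le_exp.2 (by linarith [h3.mono (by omega : j - 1 ≤ jt - 1)])
    have a4 : exp (θ R' (jt - 1)) ≤ exp (s - A R'.card) := exp_le_exp.2 h4
    have a5 : exp (L + s - A R'.card) = exp L * exp (s - A R'.card) := by rw [← exp_add]; ring_nf
    have a6 := hE R'.card
    have a7 : Q' * exp (θ R' (j - 1) - 1) ≤ exp (θ R' (jt - 1)) :=
      (mul_le_of_le_one_left (exp_pos _).le hQ'1).trans a3
    have a8 : -q.2 ≤ exp L * exp (θ R' (jt - 1)) := by
      nlinarith [exp_pos (θ R' (jt - 1))]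
    rw [a5]
    exact a8.trans (mul_le_mul_of_nonneg_left a4 (exp_pos _).le)
  have hslope : ∀ p ∈ F, ∀ i, p.1 i ≤ 0 ∧ (i ∉ R → p.1 i = 0) := by
    rintro p (rfl | ⟨R', h1, h2, j, hj, hp⟩) i
    · simp
    · have h3 := (hlay R' h1 h2).1.slope j p hp i
      refine ⟨?_, fun hi => h3.2 fun h => hi (h2.1 h)⟩
      by_cases hi : i ∈ R'
      · have : (j : ℝ) ≤ jt := by exact_mod_cast hj.le
        exact (h3.1 hi).trans (mul_nonpos_of_nonneg_of_nonpos hQ'0.le (by linarith))
      · exact (h3.2 hi).le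
  have hbs : ∀ R' : Finset ι, R'.Nonempty → R' ⊂ R → ∀ j ≤ jt, bs R' Q' (η R') jt j ∈ F := by
    intro R' h1 h2 j hj
    rcases hj.eq_or_lt with rfl | hj
    · exact Or.inl (bs_self _ _ _ _)
    · exact Or.inr ⟨R', h1, h2, j, hj, (hlay R' h1 h2).1.base j⟩
  refine ⟨F, Or.inl rfl, hslope, ?_, ?_, ?_⟩
  · rintro p (rfl | ⟨R', h1, h2, j, hj, hp⟩)
    · simp; positivity
    · refine (hgain R' h1 h2 j hj p hp).trans ?_
      have a1 : exp (s - L) = exp L * exp (s - 2 * L) := by rw [← exp_add]; ring_nf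
      have a2 : exp (L + s - A R'.card) ≤ exp (s - 2 * L) :=
        exp_le_exp.2 (by linarith [hAl R'.card, l1 R'.card])
      rw [a1]
      nlinarith [exp_pos (s - 2 * L)]
  · intro x hx lv
    have h0 : ∀ R' : Finset ι, {p | R'.Nonempty ∧ R' ⊂ R ∧ ∃ j < jt, p ∈ G R' j ∧ lv ≤ val p x}.Finite := by
      intro R'
      by_cases h : R'.Nonempty ∧ R' ⊂ R
      · have hX : 0 < ∑ i ∈ R', x i := sum_pos (fun i _ => hx i) h.1
        refine ((fin_lin (b := lv - exp (L + s - A R'.card) + Q' * jt * ∑ i ∈ R', x i)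
          (mul_pos hQ'0 hX) jt).biUnion
          fun j _ => (hlay R' h.1 h.2).1.fin j x hx lv).subset ?_
        rintro p ⟨h1, h2, j, hj, hp, hp'⟩
        refine Set.mem_biUnion (x := j) ⟨hj.le, ?_⟩ ⟨hp, hp'⟩
        have a1 := val_le_slope hx ((hlay R' h1 h2).1.slope j p hp)
        have a2 := hgain R' h1 h2 j hj p hp
        linarith
      · convert Set.finite_empty
        ext p
        simp only [Set.mem_ofPred_eq, Set.mem_empty_iff_false, iff_false]
        exact fun h' => h ⟨h'.1, h'.2.1⟩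
    refine ((Set.finite_iUnion h0).insert 0).subset ?_
    rintro p ⟨rfl | ⟨R', h1, h2, j, hj, hp⟩, hp'⟩
    · exact Set.mem_insert _ _
    · exact Set.mem_insert_of_mem _ (Set.mem_iUnion.2 ⟨R', h1, h2, j, hj, hp, hp'⟩)
  · intro x hx hcl hop p hp hmax
    have low : ∀ R' ⊂ R, ∑ i ∈ R', x i ≤ exp (s - A R'.card + 1) →
        val p x ≤ exp (L + s - A R'.card) → ∀ i, i ∉ R' → |log (x i) - c i| ≤ l R'.card := by
      intro R' h2 hx1 hv i hi
      by_cases hiR : i ∈ R
      swap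
      · exact (hcl i hiR).trans (l1 _)
      have hX : 0 < ∑ i ∈ R, x i := sum_pos (fun i _ => hx i) ⟨i, hiR⟩
      have hm := hcard _ h2
      rw [hs i hiR, abs_le]
      rw [abs_le] at hop
      refine ⟨?_, ?_⟩
      swap
      · have := log_le_log (hx i) (single_le_sum (fun i _ => (hx i).le) hiR)
        linarith [l1 R'.card]
      suffices exp (s - l R'.card) ≤ x i by
        have := (le_log_iff_exp_le (hx i)).2 this
        linarith
      have hsub : insert i R' ⊆ R := insert_subset hiR h2.1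
      have b1 : exp (s - A R'.card + 1) ≤ exp (s - l R'.card) :=
        exp_le_exp.2 (by linarith [hAl R'.card, l1 R'.card])
      rcases hsub.eq_or_ssubset with h3 | h3
      · have a1 : exp (s - L) ≤ ∑ i ∈ R, x i := (le_log_iff_exp_le hX).1 (by linarith)
        rw [← h3, sum_insert hi] at a1
        have a2 : exp (s - L) = exp (s - l R'.card) * exp (l R'.card - L) := by
          rw [← exp_add]; ring_nf
        nlinarith [add_one_le_exp (l R'.card - L), l2 _ hm, exp_pos (s - l R'.card)]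
      · have h1 : (insert i R').Nonempty := insert_nonempty _ _
        have a1 := hmax _ (hbs _ h1 h3 (jt - 1) (by omega))
        obtain ⟨h4, h5, -⟩ := hlay _ h1 h3
        have a2 := h4.step (jt - 1)
        rw [sub_add_cancel] at a2
        rw [val_bs, sum_insert hi] at a1
        rw [card_insert_of_notMem hi] at h5
        push_cast at a1
        have a3 : exp (s - l R'.card) * exp 2 ≤ exp (θ (insert i R') (jt - 1)) := by
          rw [← exp_add]; exact exp_le_exp.2 (by linarith [l3 _ hm])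
        have a4 : exp (L + s - A R'.card) ≤ Q' * exp (s - l R'.card) := by
          have c1 : exp (L + s - A R'.card) * exp (2 * L) ≤ exp (s - l R'.card) := by
            rw [← exp_add]; exact exp_le_exp.2 (by linarith [hAl R'.card, l1 R'.card])
          nlinarith [exp_pos (L + s - A R'.card), mul_le_mul_of_nonneg_left c1 hQ'0.le]
        have a5 : 3 * exp (s - l R'.card) ≤ exp (θ (insert i R') (jt - 1)) := by
          nlinarith [add_one_le_exp (2 : ℝ), exp_pos (s - l R'.card)]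
        have : Q' * exp (s - l R'.card) ≤ Q' * x i := by nlinarith
        exact le_of_mul_le_mul_left this hQ'0
    rcases hp with rfl | ⟨R', h1, h2, j, hj, hp⟩
    · by_cases hR : R.Nonempty
      · have h1 := low ∅ hR.empty_ssubset (by simp; positivity) (by rw [val_zero]; positivity)
        simp only [notMem_empty, not_false_eq_true, card_empty, forall_const] at h1
        refine ⟨fun v hv hv' => ?_, fun i => ?_⟩
        · simp only [Prod.fst_zero, add_zero] at hv'
          have a1 := (hM v (hv.trans (by exact_mod_cast hN₀))).1 hv'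
          have a2 := (abs_le.1 (abs_dot_sub v (u := fun i => log (x i)) h1)).1
          have a3 : (nrm v : ℝ) * l 0 ≤ N₀ * l 0 :=
            mul_le_mul_of_nonneg_right (by exact_mod_cast hv) (by linarith [l1 0])
          linarith
        · have a1 := abs_le.1 (h1 i)
          have a2 := abs_le.1 (hD i)
          simp only [Prod.fst_zero, Pi.zero_apply, add_zero]
          rw [abs_le]; constructor <;> linarith
      · rw [not_nonempty_iff_eq_empty] at hR
        subst hR
        have h1 : ∀ i, |log (x i) - c i| ≤ l 0 := fun i => (hcl i (notMem_empty i)).trans (l1 0)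
        refine ⟨fun v hv hv' => ?_, fun i => ?_⟩
        · simp only [Prod.fst_zero, add_zero] at hv'
          have a1 := (hM v (hv.trans (by exact_mod_cast hN₀))).1 hv'
          have a2 := (abs_le.1 (abs_dot_sub v (u := fun i => log (x i)) h1)).1
          have a3 : (nrm v : ℝ) * l 0 ≤ N₀ * l 0 :=
            mul_le_mul_of_nonneg_right (by exact_mod_cast hv) (by linarith [l1 0])
          linarith
        · have a1 := abs_le.1 (h1 i)
          have a2 := abs_le.1 (hD i)
          simp only [Prod.fst_zero, Pi.zero_apply, add_zero]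
          rw [abs_le]; constructor <;> linarith
    · obtain ⟨h3, -, h4⟩ := hlay R' h1 h2
      obtain ⟨a1, a2⟩ := h3.max j p hp x hx (fun q hq => hmax q (Or.inr ⟨R', h1, h2, j, hj, hq⟩))
        (hmax _ (hbs _ h1 h2 _ (by omega))) (hmax _ (hbs _ h1 h2 _ (by omega)))
      obtain ⟨a3, a4⟩ := a2 (low R' h2
        (a1.trans (exp_le_exp.2 (by linarith [h3.mono (by omega : j ≤ jt - 1)])))
        ((val_le_of_nonpos (fun i => (hslope p (Or.inr ⟨R', h1, h2, j, hj, hp⟩) i).1) hx).trans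
          (hgain R' h1 h2 j hj p hp)))
      exact ⟨fun v hv hv' => (l1 _).trans (a3 v hv hv'), fun i => (a4 i).trans (hC2 _)⟩

end Crest.Agent.H0122
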