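import Crest.Agent.H0122.Node

set_option autoImplicit false
set_option linter.unusedSectionVars false

namespace Crest.Agent.H0122

open Finset Real

variable {ι : Type} [Fintype ι] [DecidableEq ι]

lemma lin_le_exp {β L : ℝ} (hβ : 0 ≤ β) (h : 2 * β ≤ L) : β * L ≤ exp L := by
  have := quadratic_le_exp_of_nonneg (by linarith : 0 ≤ L)
  nlinarith

set_option maxHeartbeats 1000000 in
lemma claim (ι : Type) [Fintype ι] [DecidableEq ι] (N₀ r : ℕ) : ∃ (N : ℕ) (K : ℝ), 2 ≤ N ∧ N₀ ≤ N ∧ 4 ≤ K ∧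
    ∀ α : ℝ, 0 ≤ α → ∃ Lmin C : ℝ, 0 ≤ C ∧ Claim ι r N₀ N K α Lmin C := by
  induction r with
  | zero =>
    refine ⟨N₀ + 2, 4, by omega, by omega, le_rfl, fun α _ => ⟨0, 0, le_rfl, ?_⟩⟩
    intro R u c n n₀ Q L s h1 h2
    have := h1.card_pos
    omega
  | succ r ih =>
    obtain ⟨N', K', hN', hN₀, hK', ih⟩ := ih
    set N := 2 * N' ^ 2 with hN
    have hN'r : (2 : ℝ) ≤ N' := by exact_mod_cast hN'
    have hN₀r : (N₀ : ℝ) ≤ N' := by exact_mod_cast hN₀
    have hNN : N' ≤ N := by nlinarith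
    have hN0 : (0 : ℝ) ≤ N := Nat.cast_nonneg _
    set Λ : ℝ := 3 * K' + N + 2 with hΛ
    have hΛ2 : 2 ≤ Λ := by linarith
    set W : ℝ := Λ ^ (r + 1) with hW
    have hW1 : 1 ≤ W := one_le_pow₀ (by linarith)
    have hK1 : (N' : ℝ) * W + 4 ≤ (N' : ℝ) ^ 2 * ((1 + K') * (Λ * W)) := by
      have a1 : 10 * W ≤ (1 + K') * (Λ * W) := by
        have : 2 * W ≤ Λ * W := by nlinarith
        nlinarith
      have a2 : (2 : ℝ) * N' ≤ (N' : ℝ) ^ 2 := by nlinarith
      have a3 := mul_le_mul a2 a1 (by positivity) (by positivity)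
      nlinarith
    refine ⟨N, (N' : ℝ) ^ 2 * ((1 + K') * (Λ * W)), hN'.trans hNN, hN₀.trans hNN, by nlinarith,
      fun α hα => ?_⟩
    set α' : ℝ := N' * α + 3 * K' * W + 2 with hα'
    have hα'0 : 0 ≤ α' := by positivity
    obtain ⟨Lmin, C', hC', IH⟩ := ih α' hα'0
    set β : ℝ := N'.factorial * (2 * α' + 2) with hβ
    have hF : (1 : ℝ) ≤ N'.factorial := by exact_mod_cast Nat.factorial_pos N'
    have hβ1 : 2 * α' + 2 ≤ β := le_mul_of_one_le_left (by positivity) hF
    refine ⟨max Lmin (2 * β), α + W + C' * (Λ * W), by positivity, ?_⟩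
    intro R u c n n₀ Q L s _ hr hM hu hn hs hQ0 hQ1 hQ hD hL
    have hL1 : Lmin ≤ L := (le_max_left _ _).trans hL
    have hL2 : 2 * β ≤ L := (le_max_right _ _).trans hL
    have hL3 : 1 ≤ L := by linarith
    have hexp := lin_le_exp (by linarith) hL2
    set l : ℕ → ℝ := fun m => Λ ^ (r + 1 - m) * L with hl
    have l1 : ∀ m, L ≤ l m := fun m =>
      le_mul_of_one_le_left (by linarith) (one_le_pow₀ (by linarith))
    have l2 : ∀ m, l m ≤ W * L := fun m =>
      mul_le_mul_of_nonneg_right (pow_le_pow_right₀ (by linarith) (by omega)) (by linarith)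
    have l3 : ∀ m ≤ r, l m = Λ * l (m + 1) := fun m hm => by
      simp only [hl]
      rw [show r + 1 - m = r + 1 - (m + 1) + 1 by omega, pow_succ]; ring
    have lA : ∀ m, K' * (l m + 2) ≤ 3 * K' * l m := fun m => by nlinarith [l1 m]
    have lB : ∀ m, l m + K' * (l m + 2) + N * l m + 1 ≤ Λ * (W * L) := fun m => by
      have := lA m
      have := mul_le_mul_of_nonneg_left (l2 m) (by linarith : 0 ≤ Λ)
      have := l1 m
      simp only [hΛ] at *
      nlinarith
    have hαL : 0 ≤ 2 * (N' * (α * L)) := by positivity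
    refine node (P := ⌈2 * (N' * (α * L))⌉₊ + 1) IH hC' hN' le_rfl (hN₀.trans hNN) hK' hα'0 hr hM hu
      hn hs hQ0 hQ1 hQ hD hL1 hL3 l (fun m => K' * (l m + 2)) (fun m => N * l m) (fun _ => rfl)
      (fun _ => rfl) l1 (fun m hm => ?_) (fun m hm => ?_) (fun m => ?_) ?_ (by omega) ?_ ?_
      (fun m => ?_) ?_ ?_ (fun m => ?_)
    · rw [l3 m hm]; nlinarith [l1 (m + 1)]
    · rw [l3 m hm]
      have := lA (m + 1)
      have := l1 (m + 1)
      simp only [hΛ]
      nlinarith
    · have a1 := lB m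
      have a2 := mul_le_mul_of_nonneg_left a1 (by linarith : 0 ≤ K')
      have a3 := l1 m
      rw [mul_assoc]
      refine mul_le_mul_of_nonneg_left ?_ (by positivity)
      nlinarith
    · have a1 := mul_le_mul_of_nonneg_right hK1 (by linarith : 0 ≤ L)
      have a2 := mul_le_mul hN₀r (l2 0) (by linarith [l1 0]) (by linarith)
      nlinarith
    · push_cast
      linarith [Nat.le_ceil (2 * (N' * (α * L)))]
    · refine le_trans ?_ hexp
      rw [hβ, mul_assoc]
      refine mul_le_mul_of_nonneg_left ?_ (by linarith)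
      have := Nat.ceil_lt_add_one hαL
      push_cast
      have a1 : 0 ≤ 3 * K' * W * L := by positivity
      simp only [hα']
      nlinarith
    · have a1 := lA m
      have a2 := mul_le_mul_of_nonneg_left (l2 m) (by linarith : 0 ≤ 3 * K')
      simp only [hα']
      nlinarith
    · refine le_trans ?_ hexp
      nlinarith
    · have := l2 0
      have : 0 ≤ C' * (Λ * W) * L := by positivity
      nlinarith
    · have a1 := mul_le_mul_of_nonneg_left (lB m) hC'
      have : 0 ≤ (α + W) * L := by positivity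
      nlinarith

set_option maxHeartbeats 1000000 in
lemma root (I : Finset ι) (hI : I.Nonempty) (N₀ : ℕ) (M : ℝ) :
    ∃ (F : Set ((ι → ℝ) × ℝ)) (C B : ℝ), F.Nonempty ∧ (∀ p ∈ F, ∀ i, i ∉ I → p.1 i = 0) ∧
      (∀ p ∈ F, -p.2 ≤ B) ∧
      (∀ a b lv : ℝ, 0 < a → {p ∈ F | ∃ x : ι → ℝ, (∀ i, a ≤ x i ∧ x i ≤ b) ∧ lv ≤ val p x}.Finite) ∧
      ∀ x : ι → ℝ, (∀ i, 0 < x i) → (∀ i, i ∉ I → |log (x i)| ≤ M) → ∀ p ∈ F,
        (∀ q ∈ F, val q x ≤ val p x) →
        Compat N₀ M p.1 (fun i => log (x i)) ∧ ∀ i, |p.1 i - log (x i)| ≤ C := by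
  obtain ⟨N', K', hN', hN₀, hK', ih⟩ := claim ι N₀ I.card
  obtain ⟨Lmin, C', hC', IH⟩ := ih (3 * K' + 2) (by positivity)
  have hF : (1 : ℝ) ≤ N'.factorial := by exact_mod_cast Nat.factorial_pos N'
  set L : ℝ := max (max Lmin M) (2 * N'.factorial) with hLd
  have hL1 : Lmin ≤ L := (le_max_left _ _).trans (le_max_left _ _)
  have hL2 : M ≤ L := (le_max_right _ _).trans (le_max_left _ _)
  have hL3 : 2 * N'.factorial ≤ L := le_max_right _ _
  have hL4 : 1 ≤ L := by linarith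
  have hexp := lin_le_exp (by linarith) hL3
  set A := K' * (L + 2) with hA
  set S := ((2 * N' ^ 2 : ℕ) : ℝ) * L with hS
  obtain ⟨θ, η, G, h, -⟩ := layer (P := 1) (N := 2 * N' ^ 2) (n₀ := 0) (D := 0) (Q := 1) (L := L)
    (Lt := L) (K := (N' : ℝ) ^ 2 * (A + S + K' * (L + A + S + 1)) / L) (u := 0) (c := 0) (n := 0)
    IH hC' hI hN' le_rfl (fun v _ => by
      have := nrm_nonneg v
      simp only [dot, Pi.zero_apply, mul_zero, sum_const_zero, lt_self_iff_false, abs_zero,
        forall_const, IsEmpty.forall_iff, true_and]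
      positivity) (by simp) one_pos le_rfl (by simp) (by linarith) le_rfl (by linarith) hA hS
    (by rw [div_mul_cancel₀ _ (by linarith)]) one_pos (by simp) le_rfl (by simp) hL1
    (by
      rw [div_mul_eq_mul_div, one_le_div (by positivity)]
      push_cast
      nlinarith) (by rw [hA]; nlinarith) (by positivity)
  simp only [zero_mul, mul_zero, zero_add, Nat.cast_one, mul_one] at h
  set Q : ℝ := 1 / N'.factorial with hQ
  set E := A + 1
  have hQ0 : 0 < Q := by positivity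
  have hQ1 : Q ≤ 1 := by rw [hQ, div_le_one (by linarith)]; exact hF
  have hE : 0 ≤ E := (abs_nonneg _).trans (h.close 0)
  have ηm : Monotone η := monotone_int_of_le_succ fun j => by
    rw [h.step]; have := exp_pos (θ j); nlinarith
  have e1 : ∀ t : ℝ, 2 * exp (t - 1) ≤ exp t := by
    intro t
    have : exp t = exp (t - 1) * exp 1 := by rw [← exp_add]; ring_nf
    nlinarith [add_one_le_exp (1 : ℝ), exp_pos (t - 1)]
  have g1 : ∀ j ≤ 0, ∀ q ∈ G j, -q.2 ≤ (2 * E + 4) * exp (θ (0 - 1)) := by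
    intro j hj q hq
    have a1 := h.gain j q hq
    have a2 := gain_bound hQ0 hQ1 h.mono h.close h.step hj
    have a3 : exp (θ (j - 1) - 1) ≤ exp (θ (0 - 1)) :=
      exp_le_exp.2 (by linarith [h.mono (by omega : j - 1 ≤ 0 - 1)])
    have a7 : Q * exp (θ (j - 1) - 1) ≤ exp (θ (0 - 1)) :=
      (mul_le_of_le_one_left (exp_pos _).le hQ1).trans a3
    linarith
  have g2 : ∀ j > 0, ∀ q ∈ G j, -q.2 ≤ -(Q / 2 * exp (θ (j - 1))) := by
    intro j hj q hq
    have a1 := h.gain j q hq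
    have a2 := h.step (j - 1)
    rw [sub_add_cancel] at a2
    have a3 := ηm (by omega : 0 ≤ j - 1)
    nlinarith [e1 (θ (j - 1))]
  refine ⟨⋃ j, G j, C' * (L + A + S + 1), (2 * E + 4) * exp (θ (0 - 1)),
    ⟨_, Set.mem_iUnion.2 ⟨0, h.base 0⟩⟩, ?_, ?_, ?_, ?_⟩
  · intro p hp i hi
    obtain ⟨j, hj⟩ := Set.mem_iUnion.1 hp
    exact (h.slope j p hj i).2 hi
  · intro p hp
    obtain ⟨j, hj⟩ := Set.mem_iUnion.1 hp
    rcases le_or_gt j 0 with h0 | h0
    · exact g1 j h0 p hj
    · refine (g2 j h0 p hj).trans (le_trans ?_ (by positivity : (0 : ℝ) ≤ _))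
      have : 0 ≤ Q / 2 * exp (θ (j - 1)) := by positivity
      linarith
  · intro a b lv ha
    set T : Set ℤ := {j | ∃ q ∈ G j, ∃ x : ι → ℝ, (∀ i, a ≤ x i ∧ x i ≤ b) ∧ lv ≤ val q x} with hT
    have hXa : ∀ x : ι → ℝ, (∀ i, a ≤ x i ∧ x i ≤ b) → a ≤ ∑ i ∈ I, x i ∧ ∑ i ∈ I, x i ≤ I.card * b := by
      intro x hx
      refine ⟨(hx hI.choose).1.trans (single_le_sum (fun i _ => ha.le.trans (hx i).1) hI.choose_spec), ?_⟩
      simpa using sum_le_card_nsmul I x b fun i _ => (hx i).2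
    have hTf : T.Finite := by
      set κ : ℝ := Q / 4 * exp (-E - 1) * Q ^ 2 with hκ
      have hκ0 : 0 < κ := by positivity
      refine ((fin_lin (b := lv - (2 * E + 4) * exp (θ (0 - 1))) (mul_pos hQ0 ha) 0).union
        (Set.finite_Icc 0 ⌈(Q * (I.card * b) + |lv|) / κ⌉)).subset ?_
      rintro j ⟨q, hq, x, hx, hv⟩
      have hx0 : ∀ i, 0 < x i := fun i => ha.trans_le (hx i).1
      have a1 := val_le_slope hx0 (h.slope j q hq)
      obtain ⟨a2, a3⟩ := hXa x hx
      simp only [Int.cast_zero, sub_zero] at a1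
      rcases le_or_gt j 0 with h0 | h0
      · refine Or.inl ⟨h0, ?_⟩
        have a4 := g1 j h0 q hq
        have a5 : (j : ℝ) ≤ 0 := by exact_mod_cast h0
        have a6 : Q * j * ∑ i ∈ I, x i ≤ Q * j * a :=
          mul_le_mul_of_nonpos_left a2 (mul_nonpos_of_nonneg_of_nonpos hQ0.le a5)
        nlinarith
      · refine Or.inr ⟨h0.le, ?_⟩
        have a4 := g2 j h0 q hq
        have a5 : (1 : ℝ) ≤ j := by exact_mod_cast h0
        have a6 : Q * j * ∑ i ∈ I, x i ≤ Q * j * (I.card * b) :=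
          mul_le_mul_of_nonneg_left a3 (by positivity)
        have a7 := (abs_le.1 (h.close (j - 1))).1
        push_cast at a7
        have a8 : exp (-E - 1) * exp (Q * j) ≤ exp (θ (j - 1)) := by
          rw [← exp_add]; exact exp_le_exp.2 (by nlinarith)
        have a9 := quadratic_le_exp_of_nonneg (by positivity : 0 ≤ Q * j)
        have a10 : κ * j ^ 2 ≤ Q / 2 * exp (θ (j - 1)) := by
          have b1 : (Q * j) ^ 2 / 2 ≤ exp (Q * j) := by nlinarith
          have b2 := mul_le_mul_of_nonneg_left b1 (exp_pos (-E - 1)).le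
          have b3 := mul_le_mul_of_nonneg_left (b2.trans a8) (by positivity : 0 ≤ Q / 2)
          rw [hκ]
          nlinarith
        have a11 : κ * j * j ≤ (Q * (I.card * b) + |lv|) * j := by
          nlinarith [neg_abs_le lv, abs_nonneg lv]
        have a12 := le_of_mul_le_mul_right a11 (by linarith)
        have a13 : (j : ℝ) ≤ (Q * (I.card * b) + |lv|) / κ := by
          rw [le_div_iff₀ hκ0]; linarith
        exact_mod_cast a13.trans (Int.le_ceil _)
    refine (hTf.biUnion fun j _ => h.fin j (fun _ => a) (fun _ => ha)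
      (lv - Q * |(j : ℝ)| * (I.card * b))).subset ?_
    rintro p ⟨hp, x, hx, hv⟩
    obtain ⟨j, hj⟩ := Set.mem_iUnion.1 hp
    refine Set.mem_biUnion (x := j) ⟨p, hj, x, hx, hv⟩ ⟨hj, ?_⟩
    have a1 : ∑ i, p.1 i * x i ≤ ∑ i, p.1 i * a + ∑ i ∈ I, Q * |(j : ℝ)| * b := by
      rw [← Fintype.sum_ite_mem I, ← sum_add_distrib]
      refine sum_le_sum fun i _ => ?_
      have b1 := h.slope j p hj i
      split_ifs with hi
      · have b2 := b1.1 hi
        simp only [Int.cast_zero, sub_zero] at b2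
        have b3 : p.1 i ≤ Q * |(j : ℝ)| := b2.trans (mul_le_mul_of_nonneg_left (le_abs_self _) hQ0.le)
        have b4 := mul_le_mul_of_nonneg_right b3 (by linarith [(hx i).1] : 0 ≤ x i - a)
        have b5 : Q * |(j : ℝ)| * (x i - a) ≤ Q * |(j : ℝ)| * b :=
          mul_le_mul_of_nonneg_left (by linarith [(hx i).2]) (by positivity)
        linarith
      · rw [b1.2 hi]; simp
    rw [sum_const, nsmul_eq_mul] at a1
    unfold val at hv ⊢
    nlinarith
  · intro x hx hcl p hp hmax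
    obtain ⟨j, hj⟩ := Set.mem_iUnion.1 hp
    obtain ⟨a1, a2⟩ := (h.max j p hj x hx (fun q hq => hmax q (Set.mem_iUnion.2 ⟨j, hq⟩))
      (hmax _ (Set.mem_iUnion.2 ⟨_, h.base _⟩)) (hmax _ (Set.mem_iUnion.2 ⟨_, h.base _⟩))).2
      (fun i hi => by simpa using (hcl i hi).trans hL2)
    refine ⟨fun v hv hv' => hL2.trans (a1 v hv (by simpa using hv')), fun i => by simpa using a2 i⟩

end Crest.Agent.H0122
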