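import Mathlib

set_option autoImplicit false

namespace Crest.Agent.H0122

open Finset

/-- abstract staircase -/
lemma stair {W : Type} (T : Finset W) (hT : T.Nonempty) (π : W → ℤ) (q : W → ℝ) {Q A S E : ℝ}
    (hQ1 : Q ≤ 1) (hQ0 : 0 ≤ Q) (hA : 1 ≤ A) (hS : 0 ≤ S)
    (h1 : ∀ w ∈ T, ∀ w' ∈ T, π w < π w' → q w + 2 * A ≤ q w')
    (h2 : ∀ w ∈ T, ∀ w' ∈ T, π w = π w' → q w ≤ q w' + S)
    (h3 : ∀ w ∈ T, |q w - Q * π w| ≤ E)
    (h4 : ∀ w ∈ T, ∀ w' ∈ T, π w < π w' → 2 * E ≤ (π w' : ℝ) - π w) :
    ∃ θ : ℤ → ℝ, Monotone θ ∧ (∀ j, ∀ w ∈ T, π w ≤ j → q w + A ≤ θ j) ∧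
      (∀ j, ∀ w ∈ T, j < π w → θ j ≤ q w - A) ∧
      (∀ w ∈ T, θ (π w) ≤ q w + A + S ∧ q w - A - S ≤ θ (π w - 1)) ∧
      (∀ j, (∀ w ∈ T, π w ≠ j) → θ j ≤ θ (j - 1) + 2) ∧
      (∀ j, |θ j - Q * j| ≤ E + A + 1) := by
  classical
  set lb : W → ℤ → ℝ := fun w j => if π w ≤ j then q w + A else q w - A - S - 2 * ((π w : ℝ) - 1 - j)
    with hlb
  set ub : W → ℤ → ℝ := fun w j => if π w ≤ j then q w + A + S + 2 * ((j : ℝ) - π w) else q w - A
    with hub
  have hlu : ∀ j, ∀ w ∈ T, ∀ w' ∈ T, lb w j ≤ ub w' j := by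
    intro j w hw w' hw'
    have e3 := abs_le.1 (h3 w hw)
    have e3' := abs_le.1 (h3 w' hw')
    simp only [hlb, hub]
    rcases lt_trichotomy (π w) (π w') with h | h | h
    · have := h1 w hw w' hw' h
      split_ifs with a b b
      · have : (π w' : ℝ) ≤ j := by exact_mod_cast b
        linarith
      · linarith
      · omega
      · have : (j : ℝ) + 1 ≤ π w := by exact_mod_cast (by omega : j + 1 ≤ π w)
        linarith
    · have := h2 w hw w' hw' h
      split_ifs with a b b
      · have : (π w' : ℝ) ≤ j := by exact_mod_cast b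
        linarith
      · omega
      · omega
      · have : (j : ℝ) + 1 ≤ π w := by exact_mod_cast (by omega : j + 1 ≤ π w)
        linarith
    · have h5 := h4 w' hw' w hw h
      have h6 : (π w' : ℝ) + 1 ≤ π w := by exact_mod_cast (by omega : π w' + 1 ≤ π w)
      have h7 : q w - q w' ≤ 2 * ((π w : ℝ) - π w') := by nlinarith
      split_ifs with a b b
      · have : (π w : ℝ) ≤ j := by exact_mod_cast a
        linarith
      · omega
      · linarith
      · have : (j : ℝ) + 1 ≤ π w' := by exact_mod_cast (by omega : j + 1 ≤ π w')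
        linarith
  have lbm : ∀ w, Monotone (lb w) := by
    intro w i j hij
    have hij' : (i : ℝ) ≤ j := by exact_mod_cast hij
    simp only [hlb]
    split_ifs with a b b
    · exact le_rfl
    · omega
    · have : (i : ℝ) + 1 ≤ π w := by exact_mod_cast (by omega : i + 1 ≤ π w)
      linarith
    · linarith
  have ubm : ∀ w, Monotone (ub w) := by
    intro w i j hij
    have hij' : (i : ℝ) ≤ j := by exact_mod_cast hij
    simp only [hub]
    split_ifs with a b b
    · linarith
    · omega
    · have : (π w : ℝ) ≤ j := by exact_mod_cast b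
      linarith
    · exact le_rfl
  set LB : ℤ → ℝ := fun j => T.sup' hT (fun w => lb w j) with hLB
  set UB : ℤ → ℝ := fun j => T.inf' hT (fun w => ub w j) with hUB
  have hLU : ∀ j, LB j ≤ UB j := fun j =>
    sup'_le _ _ fun w hw => le_inf' _ _ fun w' hw' => hlu j w hw w' hw'
  have g1 : ∀ j, ∀ w ∈ T, lb w j ≤ max (LB j) (min (UB j) (Q * j)) := fun j w hw =>
    (le_sup' (fun w => lb w j) hw).trans (le_max_left _ _)
  have g2 : ∀ j, ∀ w ∈ T, max (LB j) (min (UB j) (Q * j)) ≤ ub w j := fun j w hw =>
    (max_le (hLU j) (min_le_left _ _)).trans (inf'_le (fun w => ub w j) hw)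
  refine ⟨fun j => max (LB j) (min (UB j) (Q * j)), ?_, ?_, ?_, ?_, ?_, ?_⟩
  · intro i j hij
    have hij' : (i : ℝ) ≤ j := by exact_mod_cast hij
    refine max_le_max ?_ (min_le_min ?_ (mul_le_mul_of_nonneg_left hij' hQ0))
    · exact sup'_le _ _ fun w hw => (lbm w hij).trans (le_sup' (fun w => lb w j) hw)
    · exact le_inf' _ _ fun w hw => (inf'_le (fun w => ub w i) hw).trans (ubm w hij)
  · intro j w hw h
    have := g1 j w hw
    simp only [hlb, if_pos h] at this
    exact this
  · intro j w hw h
    have := g2 j w hw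
    simp only [hub, if_neg (not_le.2 h)] at this
    exact this
  · intro w hw
    constructor
    · have := g2 (π w) w hw
      simp only [hub, le_refl, if_true, sub_self, mul_zero, add_zero] at this
      exact this
    · have := g1 (π w - 1) w hw
      simp only [hlb, if_neg (show ¬ π w ≤ π w - 1 by omega)] at this
      push_cast at this ⊢
      linarith
  · intro j hj
    have e1 : LB j ≤ LB (j - 1) + 2 := by
      refine sup'_le _ _ fun w hw => ?_
      have h5 : lb w (j - 1) ≤ LB (j - 1) := le_sup' (fun w => lb w (j - 1)) hw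
      have h6 := hj w hw
      have : lb w j ≤ lb w (j - 1) + 2 := by
        simp only [hlb]
        split_ifs with a b b
        · linarith
        · omega
        · omega
        · push_cast; linarith
      linarith
    have e2 : UB j ≤ UB (j - 1) + 2 := by
      obtain ⟨w, hw, h5⟩ := exists_mem_eq_inf' hT (fun w => ub w (j - 1))
      have h6 := hj w hw
      have h7 : UB j ≤ ub w j := inf'_le (fun w => ub w j) hw
      have : ub w j ≤ ub w (j - 1) + 2 := by
        simp only [hub]
        split_ifs with a b b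
        · push_cast; linarith
        · omega
        · omega
        · linarith
      have h8 : UB (j - 1) = ub w (j - 1) := h5
      linarith
    have e3 : Q * j ≤ Q * ((j - 1 : ℤ) : ℝ) + 2 := by push_cast; linarith
    simp only
    rw [← max_add_add_right, ← min_add_add_right]
    exact max_le_max e1 (min_le_min e2 e3)
  · intro j
    have e1 : LB j ≤ Q * j + (E + A + 1) := by
      refine sup'_le _ _ fun w hw => ?_
      have e3 := abs_le.1 (h3 w hw)
      simp only [hlb]
      split_ifs with a
      · have : (π w : ℝ) ≤ j := by exact_mod_cast a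
        nlinarith
      · have : (j : ℝ) + 1 ≤ π w := by exact_mod_cast (by omega : j + 1 ≤ π w)
        nlinarith
    have e2 : Q * j - (E + A + 1) ≤ UB j := by
      refine le_inf' _ _ fun w hw => ?_
      have e3 := abs_le.1 (h3 w hw)
      simp only [hub]
      split_ifs with a
      · have : (π w : ℝ) ≤ j := by exact_mod_cast a
        nlinarith
      · have : (j : ℝ) + 1 ≤ π w := by exact_mod_cast (by omega : j + 1 ≤ π w)
        nlinarith
    have hE : 0 ≤ E := by
      obtain ⟨w, hw⟩ := hT
      exact (abs_nonneg _).trans (h3 w hw)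
    rw [abs_le]
    constructor
    · have : Q * j - (E + A + 1) ≤ min (UB j) (Q * j) := le_min e2 (by linarith)
      have := le_max_right (LB j) (min (UB j) (Q * j))
      simp only
      linarith
    · have : max (LB j) (min (UB j) (Q * j)) ≤ Q * j + (E + A + 1) :=
        max_le e1 ((min_le_right _ _).trans (by linarith))
      simp only
      linarith

end Crest.Agent.H0122
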