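import Crest.Agent.H0122.Stair

set_option autoImplicit false
set_option linter.unusedSectionVars false

namespace Crest.Agent.H0122

open Finset

variable {ι : Type} [Fintype ι] [DecidableEq ι]

def dot (v : ι → ℤ) (u : ι → ℝ) : ℝ := ∑ i, (v i : ℝ) * u i

def nrm (v : ι → ℤ) : ℤ := ∑ i, |v i|

def Mar (N : ℕ) (K L : ℝ) (u c : ι → ℝ) : Prop :=
  ∀ v : ι → ℤ, nrm v ≤ N → (0 < dot v u → K * L ≤ dot v c) ∧ (dot v u = 0 → |dot v c| ≤ nrm v * L)

def upd (R : Finset ι) (τ : ℝ) (u : ι → ℝ) : ι → ℝ := fun i => if i ∈ R then τ else u i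

def res (R : Finset ι) (v : ι → ℤ) : ι → ℤ := fun i => if i ∈ R then 0 else v i

def sm (R : Finset ι) (v : ι → ℤ) : ℤ := ∑ i ∈ R, v i

lemma dot_upd (R : Finset ι) (τ : ℝ) (u : ι → ℝ) (v : ι → ℤ) :
    dot v (upd R τ u) = dot (res R v) u + sm R v * τ := by
  unfold dot upd res sm
  push_cast
  rw [sum_mul, ← Fintype.sum_ite_mem R, ← sum_add_distrib]
  refine sum_congr rfl fun i _ => ?_
  split_ifs <;> simp

lemma nrm_nonneg (v : ι → ℤ) : 0 ≤ nrm v := sum_nonneg fun _ _ => abs_nonneg _

lemma nrm_res (R : Finset ι) (v : ι → ℤ) : nrm (res R v) ≤ nrm v := by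
  refine sum_le_sum fun i _ => ?_
  unfold res; split_ifs <;> simp

lemma abs_sm (R : Finset ι) (v : ι → ℤ) : |sm R v| ≤ nrm v :=
  (abs_sum_le_sum_abs _ _).trans (sum_le_sum_of_subset_of_nonneg (subset_univ _) fun _ _ _ => abs_nonneg _)

lemma nrm_neg (v : ι → ℤ) : nrm (-v) = nrm v := by simp [nrm]
lemma sm_neg (R : Finset ι) (v : ι → ℤ) : sm R (-v) = - sm R v := by simp [sm]
lemma dot_neg (v : ι → ℤ) (u : ι → ℝ) : dot (-v) u = - dot v u := by simp [dot]

lemma abs_dot_sub (v : ι → ℤ) {u c : ι → ℝ} {D : ℝ} (h : ∀ i, |u i - c i| ≤ D) :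
    |dot v u - dot v c| ≤ nrm v * D := by
  unfold dot nrm
  rw [← sum_sub_distrib]
  push_cast
  rw [sum_mul]
  refine (abs_sum_le_sum_abs _ _).trans (sum_le_sum fun i _ => ?_)
  rw [← mul_sub, abs_mul]
  exact mul_le_mul_of_nonneg_left (h i) (abs_nonneg _)

lemma dot_comb (a b : ℤ) (v w : ι → ℤ) (u : ι → ℝ) :
    dot (a • v - b • w) u = a * dot v u - b * dot w u := by
  unfold dot
  rw [mul_sum, mul_sum, ← sum_sub_distrib]
  refine sum_congr rfl fun i _ => ?_
  simp; ring

lemma nrm_comb (a b : ℤ) (v w : ι → ℤ) : nrm (a • v - b • w) ≤ |a| * nrm v + |b| * nrm w := by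
  unfold nrm
  rw [mul_sum, mul_sum, ← sum_add_distrib]
  refine sum_le_sum fun i _ => ?_
  simp only [Pi.sub_apply, Pi.smul_apply, smul_eq_mul]
  rw [← abs_mul, ← abs_mul]
  exact abs_sub _ _

set_option maxHeartbeats 2000000 in
lemma step {N N' P : ℕ} {K K' L Lt D Q A S : ℝ} {u c : ι → ℝ} {n : ι → ℤ} {R : Finset ι}
    (hR : R.Nonempty) (hN' : 2 ≤ N') (hN : 2 * N' ^ 2 ≤ N) (hM : Mar N K L u c)
    (hu : ∀ i, u i = Q * n i) (hQ0 : 0 < Q) (hQ1 : Q ≤ 1) (hD : ∀ i, |u i - c i| ≤ D)
    (hL0 : 0 ≤ L) (hL : L ≤ Lt) (hK' : 1 ≤ K') (hA : A = K' * (Lt + 2)) (hS : S = N * Lt)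
    (hK : (N' : ℝ) ^ 2 * (A + S + K' * (Lt + A + S + 1)) ≤ K * L) (hP0 : 0 < P)
    (hP : 2 * (N' * D) ≤ P) :
    ∃ θ : ℤ → ℝ, Monotone θ ∧
      (∀ j, Mar N' K' (Lt + (θ j - θ (j - 1)) / 2 + 1) (upd R (Q / (N'.factorial * P) * j) u)
        (upd R ((θ (j - 1) + θ j) / 2) c)) ∧
      (∀ j, θ j - θ (j - 1) ≤ 2 * (A + S)) ∧
      (∀ j, |θ j - Q / (N'.factorial * P) * j| ≤ N' * D + A + 1) ∧
      (∀ i, i ∉ R → c i - A - S ≤ θ (n i * (N'.factorial * P) - 1) ∧
        θ (n i * (N'.factorial * P) - 1) ≤ c i - A) := by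
  set Q' : ℝ := Q / (N'.factorial * P) with hQ'
  have hF : (1 : ℝ) ≤ N'.factorial := by exact_mod_cast Nat.factorial_pos N'
  have hP' : (1 : ℝ) ≤ P := by exact_mod_cast hP0
  have hFP : (1 : ℝ) ≤ N'.factorial * P := by nlinarith
  have hQ'0 : 0 < Q' := by positivity
  have hQ'1 : Q' ≤ 1 := (div_le_self hQ0.le hFP).trans hQ1
  have hLt : 0 ≤ Lt := hL0.trans hL
  have hA1 : 1 ≤ A := by rw [hA]; nlinarith
  have hS0 : 0 ≤ S := by rw [hS]; positivity
  have hN'r : (2 : ℝ) ≤ N' := by exact_mod_cast hN'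
  obtain ⟨i', hi'⟩ := hR
  have hD0 : 0 ≤ D := (abs_nonneg _).trans (hD i')
  set T : Finset (ι → ℤ) := {v ∈ Fintype.piFinset (fun _ => Icc (-(N' : ℤ)) N') | nrm v ≤ N' ∧ 0 < sm R v}
    with hT
  have memT : ∀ v, nrm v ≤ N' → 0 < sm R v → v ∈ T := by
    intro v h1 h2
    refine mem_filter.2 ⟨Fintype.mem_piFinset.2 fun i => mem_Icc.2 (abs_le.1 ?_), h1, h2⟩
    exact (single_le_sum (f := fun i => |v i|) (fun _ _ => abs_nonneg _) (mem_univ i)).trans h1
  set π : (ι → ℤ) → ℤ := fun v => -(∑ i, res R v i * n i) * (N'.factorial / sm R v) * P with hπ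
  set q : (ι → ℤ) → ℝ := fun v => - dot (res R v) c / sm R v with hq
  have hs1 : ∀ v ∈ T, (1 : ℝ) ≤ sm R v := fun v hv => by
    exact_mod_cast (mem_filter.1 hv).2.2
  have hsN : ∀ v ∈ T, (sm R v : ℝ) ≤ N' := fun v hv => by
    exact_mod_cast (le_abs_self _).trans ((abs_sm R v).trans (mem_filter.1 hv).2.1)
  have hqs : ∀ v ∈ T, dot (res R v) c = - (sm R v * q v) := by
    intro v hv
    have := hs1 v hv
    simp only [hq]; field_simp
  have hπs : ∀ v ∈ T, dot (res R v) u = - (sm R v * (Q' * π v)) := by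
    intro v hv
    have h1 := (mem_filter.1 hv).2.2
    have h2 : sm R v ≤ N' := by exact_mod_cast hsN v hv
    have h3 : sm R v ∣ (N'.factorial : ℤ) := by
      obtain ⟨k, hk⟩ := Int.eq_ofNat_of_zero_le h1.le
      rw [hk] at h1 h2 ⊢
      exact Int.natCast_dvd_natCast.2 (Nat.dvd_factorial (by omega) (by omega))
    have h4 : ((N'.factorial / sm R v : ℤ) : ℝ) * sm R v = N'.factorial := by
      exact_mod_cast Int.ediv_mul_cancel h3
    have h5 : dot (res R v) u = Q * ((∑ i, res R v i * n i : ℤ) : ℝ) := by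
      unfold dot; push_cast; rw [mul_sum]
      exact sum_congr rfl fun i _ => by rw [hu]; ring
    rw [h5]
    simp only [hπ, hQ']
    push_cast
    generalize ((∑ i, (res R v i : ℝ) * (n i : ℝ))) = a
    generalize ((N'.factorial / sm R v : ℤ) : ℝ) = f at h4
    rw [← h4]
    have : f ≠ 0 := by rintro rfl; rw [zero_mul] at h4; linarith
    have := hs1 v hv
    field_simp
  have helim : ∀ v ∈ T, ∀ w ∈ T, (π v < π w → A + S + K' * (Lt + A + S + 1) ≤ q w - q v) ∧
      (π v = π w → q v ≤ q w + S) := by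
    intro v hv w hw
    have hv1 := hs1 v hv
    have hw1 := hs1 w hw
    have hvN := hsN v hv
    have hwN := hsN w hw
    have h1 : nrm (sm R w • res R v - sm R v • res R w) ≤ N := by
      refine (nrm_comb _ _ _ _).trans ?_
      have a1 := (abs_sm R v).trans (mem_filter.1 hv).2.1
      have a2 := (abs_sm R w).trans (mem_filter.1 hw).2.1
      have a3 := (nrm_res R v).trans (mem_filter.1 hv).2.1
      have a4 := (nrm_res R w).trans (mem_filter.1 hw).2.1
      have a5 := nrm_nonneg (res R v)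
      have a6 := nrm_nonneg (res R w)
      have : (2 * (N' : ℤ) ^ 2) ≤ N := by exact_mod_cast hN
      nlinarith [mul_le_mul a1 a4 a6 (by positivity), mul_le_mul a2 a3 a5 (by positivity)]
    obtain ⟨h2, h3⟩ := hM _ h1
    rw [dot_comb, dot_comb, hπs v hv, hπs w hw, hqs v hv, hqs w hw] at h2 h3
    constructor
    · intro h
      have h' : (π v : ℝ) < π w := by exact_mod_cast h
      have h4 := h2 (by
        have : 0 < (sm R v : ℝ) * sm R w * Q' * ((π w : ℝ) - π v) := by
          have : 0 < (π w : ℝ) - π v := by linarith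
          positivity
        linarith)
      have h5 : (N' : ℝ) ^ 2 * (A + S + K' * (Lt + A + S + 1)) ≤ sm R v * sm R w * (q w - q v) := by
        linarith
      have h6 : (sm R v : ℝ) * sm R w ≤ (N' : ℝ) ^ 2 := by nlinarith
      have h7 : 0 < A + S + K' * (Lt + A + S + 1) := by positivity
      by_contra h8
      push Not at h8
      have : (sm R v : ℝ) * sm R w * (q w - q v) < sm R v * sm R w * (A + S + K' * (Lt + A + S + 1)) :=
        mul_lt_mul_of_pos_left h8 (by positivity)
      nlinarith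
    · intro h
      have h4 := (abs_le.1 (h3 (by rw [h]; ring))).1
      have h5 : ((nrm (sm R w • res R v - sm R v • res R w) : ℤ) : ℝ) * L ≤ S := by
        rw [hS]
        exact mul_le_mul (by exact_mod_cast h1) hL hL0 (Nat.cast_nonneg _)
      by_contra h8
      push Not at h8
      have h6 : (1 : ℝ) ≤ sm R v * sm R w := by nlinarith
      nlinarith
  have hne : T.Nonempty := ⟨Pi.single i' 1, memT _ (by
      unfold nrm
      rw [sum_eq_single i' (fun b _ hb => by simp [hb]) (by simp)]; simp; omega)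
    (by unfold sm; rw [sum_eq_single i' (fun b _ hb => by simp [hb]) (by simp [hi'])]; simp)⟩
  obtain ⟨θ, t0, t1, t2, t3, t4, t5⟩ := stair T hne π q (E := N' * D) hQ'1 hQ'0.le hA1 hS0
    (fun v hv w hw h => by
      have := (helim v hv w hw).1 h
      nlinarith)
    (fun v hv w hw h => (helim v hv w hw).2 h)
    (fun v hv => by
      have h1 := abs_dot_sub (res R v) hD
      rw [hπs v hv, hqs v hv] at h1
      have h2 : ((nrm (res R v) : ℤ) : ℝ) * D ≤ N' * D :=
        mul_le_mul_of_nonneg_right (by exact_mod_cast (nrm_res R v).trans (mem_filter.1 hv).2.1) hD0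
      have h3 : -((sm R v : ℝ) * (Q' * π v)) - -(sm R v * q v) = sm R v * (q v - Q' * π v) := by ring
      rw [h3, abs_mul, abs_of_pos (by linarith [hs1 v hv] : (0 : ℝ) < sm R v)] at h1
      nlinarith [hs1 v hv, abs_nonneg (q v - Q' * π v)])
    (fun v _ w _ h => by
      refine hP.trans ?_
      simp only [hπ] at h ⊢
      generalize -(∑ i, res R v i * n i) * (N'.factorial / sm R v) = a at *
      generalize -(∑ i, res R w i * n i) * (N'.factorial / sm R w) = b at *
      have h1 : a < b := lt_of_mul_lt_mul_right h (by positivity)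
      have h2 : (a : ℝ) + 1 ≤ b := by exact_mod_cast h1
      push_cast
      nlinarith)
  have tlen : ∀ j, θ j - θ (j - 1) ≤ 2 * (A + S) := by
    intro j
    by_cases h : ∀ w ∈ T, π w ≠ j
    · have := t4 j h
      linarith
    · push Not at h
      obtain ⟨w, hw, rfl⟩ := h
      have := t3 w hw
      linarith
  have tmono : ∀ j, θ (j - 1) ≤ θ j := fun j => t0 (by omega)
  have k12 : ∀ j, ∀ v ∈ T,
      (π v < j → K' * (Lt + (θ j - θ (j - 1)) / 2 + 1) ≤ (θ (j - 1) + θ j) / 2 - q v) ∧
      (j < π v → K' * (Lt + (θ j - θ (j - 1)) / 2 + 1) ≤ q v - (θ (j - 1) + θ j) / 2) := by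
    intro j v hv
    have := tmono j
    by_cases h : ∀ w ∈ T, π w ≠ j
    · have h1 := t4 j h
      have h2 : K' * (Lt + (θ j - θ (j - 1)) / 2 + 1) ≤ A := by
        rw [hA]; exact mul_le_mul_of_nonneg_left (by linarith) (by linarith)
      constructor
      · intro h3
        have := t1 (j - 1) v hv (by omega)
        linarith
      · intro h3
        have := t2 j v hv h3
        linarith
    · push Not at h
      obtain ⟨w, hw, rfl⟩ := h
      have h1 := t3 w hw
      have h2 : K' * (Lt + (θ (π w) - θ (π w - 1)) / 2 + 1) ≤ K' * (Lt + A + S + 1) := by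
        exact mul_le_mul_of_nonneg_left (by linarith [tlen (π w)]) (by linarith)
      constructor
      · intro h3
        have := (helim v hv w hw).1 h3
        linarith
      · intro h3
        have := (helim w hw v hv).1 h3
        linarith
  have k3 : ∀ v ∈ T, |(θ (π v - 1) + θ (π v)) / 2 - q v| ≤ Lt + (θ (π v) - θ (π v - 1)) / 2 + 1 := by
    intro v hv
    have h1 := t1 (π v) v hv le_rfl
    have h2 := t2 (π v - 1) v hv (by omega)
    rw [abs_le]
    constructor <;> linarith
  have kpos : ∀ j : ℤ, ∀ v ∈ T,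
      (0 < dot v (upd R (Q' * j) u) →
        K' * (Lt + (θ j - θ (j - 1)) / 2 + 1) ≤ dot v (upd R ((θ (j - 1) + θ j) / 2) c)) ∧
      (dot v (upd R (Q' * j) u) < 0 →
        K' * (Lt + (θ j - θ (j - 1)) / 2 + 1) ≤ - dot v (upd R ((θ (j - 1) + θ j) / 2) c)) ∧
      (dot v (upd R (Q' * j) u) = 0 →
        |dot v (upd R ((θ (j - 1) + θ j) / 2) c)| ≤ nrm v * (Lt + (θ j - θ (j - 1)) / 2 + 1)) := by
    intro j v hv
    have hv1 := hs1 v hv
    have := tmono j
    have hpos : 0 ≤ K' * (Lt + (θ j - θ (j - 1)) / 2 + 1) := by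
      have : 0 ≤ Lt + (θ j - θ (j - 1)) / 2 + 1 := by linarith
      positivity
    rw [dot_upd, dot_upd, hπs v hv, hqs v hv]
    have e : -((sm R v : ℝ) * (Q' * π v)) + sm R v * (Q' * j) = (sm R v * Q') * ((j : ℝ) - π v) := by ring
    have e' : -((sm R v : ℝ) * q v) + sm R v * ((θ (j - 1) + θ j) / 2) =
      sm R v * ((θ (j - 1) + θ j) / 2 - q v) := by ring
    have hsq : 0 < (sm R v : ℝ) * Q' := by positivity
    rw [e, e']
    refine ⟨fun h => ?_, fun h => ?_, fun h => ?_⟩
    · have h1 : 0 < (j : ℝ) - π v := (mul_pos_iff_of_pos_left hsq).1 h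
      have h2 := (k12 j v hv).1 (by exact_mod_cast (by linarith : (π v : ℝ) < j))
      nlinarith
    · have h1 : (j : ℝ) - π v < 0 := by
        by_contra h1
        exact absurd h (not_lt.2 (mul_nonneg hsq.le (not_lt.1 h1)))
      have h2 := (k12 j v hv).2 (by exact_mod_cast (by linarith : (j : ℝ) < π v))
      nlinarith
    · have h1 : (j : ℝ) - π v = 0 := (mul_eq_zero.1 h).resolve_left hsq.ne'
      have h2 : j = π v := by exact_mod_cast (by linarith : (j : ℝ) = π v)
      subst h2
      rw [abs_mul]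
      exact mul_le_mul (by exact_mod_cast abs_sm R v) (k3 v hv) (abs_nonneg _)
        (by exact_mod_cast nrm_nonneg v)
  refine ⟨θ, t0, ?_, tlen, t5, ?_⟩
  · intro j v hv
    rcases lt_trichotomy (sm R v) 0 with h | h | h
    · have := kpos j (-v) (memT _ (by rwa [nrm_neg]) (by rw [sm_neg]; omega))
      rw [dot_neg, dot_neg, nrm_neg, neg_neg, abs_neg] at this
      exact ⟨fun h => this.2.1 (by linarith), fun h => this.2.2 (by linarith)⟩
    · rw [dot_upd, dot_upd, h]
      simp only [Int.cast_zero, zero_mul, add_zero]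
      have h1 : nrm (res R v) ≤ N := by
        refine (nrm_res R v).trans (hv.trans ?_)
        have : (2 * (N' : ℤ) ^ 2) ≤ N := by exact_mod_cast hN
        nlinarith
      obtain ⟨h2, h3⟩ := hM _ h1
      have := tmono j
      constructor
      · intro h4
        refine le_trans ?_ (hK.trans (h2 h4))
        have h5 : K' * (Lt + (θ j - θ (j - 1)) / 2 + 1) ≤ K' * (Lt + A + S + 1) := by
          exact mul_le_mul_of_nonneg_left (by linarith [tlen j]) (by linarith)
        have h7 : 0 < A + S + K' * (Lt + A + S + 1) := by positivity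
        have h8 : (1 : ℝ) ≤ (N' : ℝ) ^ 2 := by nlinarith
        nlinarith [mul_le_mul_of_nonneg_right h8 h7.le]
      · intro h4
        refine (h3 h4).trans ?_
        exact mul_le_mul (by exact_mod_cast nrm_res R v) (by linarith) hL0
          (by exact_mod_cast nrm_nonneg v)
    · have := kpos j v (memT _ hv h)
      exact ⟨this.1, this.2.2⟩
  · intro i hi
    have hne' : i ≠ i' := fun h => hi (h ▸ hi')
    set v : ι → ℤ := Pi.single i' 1 - Pi.single i 1 with hv
    have hsm : sm R v = 1 := by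
      unfold sm
      rw [sum_eq_single i' (fun b hb hb' => by
        have : b ≠ i := fun h => hi (h ▸ hb)
        simp [hv, hb', this]) (by simp [hi'])]
      simp [hv, hne'.symm]
    have hres : res R v = - Pi.single i 1 := by
      ext b
      unfold res
      split_ifs with hb
      · have : b ≠ i := fun h => hi (h ▸ hb)
        simp [this]
      · have : b ≠ i' := fun h => hb (h ▸ hi')
        simp [hv, this]
    have hvT : v ∈ T := memT _ (by
      have := nrm_comb 1 1 (Pi.single i' 1) (Pi.single i (1 : ℤ))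
      have h1 : ∀ k : ι, nrm (Pi.single k (1 : ℤ)) = 1 := by
        intro k
        unfold nrm
        rw [sum_eq_single k (fun b _ hb => by simp [hb]) (by simp)]; simp
      simp only [one_smul, h1, abs_one] at this
      rw [hv]
      omega) (by omega)
    have hπv : π v = n i * (N'.factorial * P) := by
      simp only [hπ, hres, hsm]
      rw [sum_eq_single i (fun b _ hb => by simp [hb]) (by simp)]
      simp; ring
    have hqv : q v = c i := by
      simp only [hq, hres, hsm, dot]
      rw [sum_eq_single i (fun b _ hb => by simp [hb]) (by simp)]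
      simp
    have h1 := (t3 v hvT).2
    have h2 := t2 (π v - 1) v hvT (by omega)
    rw [hπv, hqv] at h1 h2
    exact ⟨h1, h2⟩

end Crest.Agent.H0122
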